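import Vale.Agent.P254.Simplex

/-!
Affine invariance of the ratio.
-/

open MeasureTheory Set Matrix
open scoped Pointwise

namespace Vale.Agent.P254

variable {ι κ : Type*} [Fintype ι] [Fintype κ] [DecidableEq ι] [DecidableEq κ]

omit [DecidableEq ι] [DecidableEq κ] in
lemma exists_scale_integral (L : (ι → ℝ) ≃ₗ[ℝ] (κ → ℝ)) (v : κ → ℝ) (σ : ι ≃ κ) :
    ∀ (K : Set (ι → ℝ)), MeasurableSet K → ∀ f : (κ → ℝ) → ℝ,
      ∫ y in (fun x => v + L x) '' K, f y =
        |LinearMap.det (((LinearEquiv.funCongrLeft ℝ ℝ σ).toLinearMap).comp L.toLinearMap)| *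
          ∫ x in K, f (v + L x) := by
  intro K hK f
  classical
  set R := LinearEquiv.funCongrLeft ℝ ℝ σ with hR
  set A : (ι → ℝ) →ₗ[ℝ] (ι → ℝ) := R.toLinearMap.comp L.toLinearMap with hA
  set e := MeasurableEquiv.piCongrLeft (fun _ : κ => ℝ) σ with he
  have hmp : MeasurePreserving e volume volume :=
    volume_measurePreserving_piCongrLeft (fun _ : κ => ℝ) σ
  have heA : ∀ x, e (A x) = L x := by
    intro x
    ext j
    obtain ⟨i, rfl⟩ := σ.surjective j
    rw [he, MeasurableEquiv.piCongrLeft_apply_apply]
    rfl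
  have himg : (fun x => v + L x) '' K = (fun y => v + y) '' (e '' (A '' K)) := by
    rw [image_image, image_image]
    simp only [heA]
  rw [himg, (measurePreserving_add_left volume v).setIntegral_image_emb
    (measurableEmbedding_addLeft v), hmp.setIntegral_image_emb e.measurableEmbedding]
  have hAinj : Function.Injective A := R.injective.comp L.injective
  have hh := integral_image_eq_integral_abs_det_fderiv_smul volume hK
    (fun x _ => (LinearMap.toContinuousLinearMap A).hasFDerivWithinAt) hAinj.injOn
    (fun x => f (v + e x))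
  simp only [smul_eq_mul, integral_const_mul, LinearMap.det_toContinuousLinearMap,
    LinearMap.coe_toContinuousLinearMap', heA] at hh
  exact hh

omit [DecidableEq ι] [DecidableEq κ] in
lemma IsBody.affine_image {K : Set (ι → ℝ)} (hK : IsBody K) (L : (ι → ℝ) ≃ₗ[ℝ] (κ → ℝ))
    (v : κ → ℝ) (h0 : (0 : κ → ℝ) ∈ (fun x => v + L x) '' K) :
    IsBody ((fun x => v + L x) '' K) where
  convex := by
    have : (fun x => v + L x) '' K = (fun y => v + y) '' (L.toLinearMap '' K) := by
      rw [image_image]; rfl
    rw [this]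
    exact (hK.convex.linear_image L.toLinearMap).translate v
  compact := hK.compact.image (continuous_const.add L.toContinuousLinearEquiv.continuous)
  interior_nonempty := by
    set h := L.toContinuousLinearEquiv.toHomeomorph.trans (Homeomorph.addLeft v)
    have : (fun x => v + L x) '' K = h '' K := rfl
    rw [this, ← h.image_interior]
    exact hK.interior_nonempty.image h
  zero_mem := h0

omit [DecidableEq ι] in
lemma dotProduct_centroid {K : Set (ι → ℝ)} (hK : IsBody K) (l : ι → ℝ) :
    (volume.real K)⁻¹ * ∫ x in K, l ⬝ᵥ x = l ⬝ᵥ bodyCentroid K := by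
  simp only [dotProduct, bodyCentroid]
  have hint : ∀ i ∈ (Finset.univ : Finset ι),
      Integrable (fun x : ι → ℝ => l i * x i) (volume.restrict K) :=
    fun i _ => integrableOn_of_continuous hK.compact (by fun_prop)
  rw [integral_finsetSum _ hint, Finset.mul_sum]
  refine Finset.sum_congr rfl fun i _ => ?_
  rw [integral_const_mul]; ring

/-- `det Σ / |K|^2` is invariant under invertible affine maps. -/
lemma disp_affine_image {K : Set (ι → ℝ)} (hK : IsBody K) (L : (ι → ℝ) ≃ₗ[ℝ] (κ → ℝ))
    (v : κ → ℝ) :
    (covMatrix ((fun x => v + L x) '' K)).det / (volume.real ((fun x => v + L x) '' K)) ^ 2 =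
      (covMatrix K).det / (volume.real K) ^ 2 := by
  obtain ⟨σ⟩ : Nonempty (ι ≃ κ) := by
    refine Fintype.card_eq.1 ?_
    simpa using L.finrank_eq
  set A : (ι → ℝ) →ₗ[ℝ] (ι → ℝ) :=
    (LinearEquiv.funCongrLeft ℝ ℝ σ).toLinearMap.comp L.toLinearMap with hA
  set c := |LinearMap.det A| with hc
  have hint := exists_scale_integral L v σ K hK.compact.measurableSet
  have hV := hK.volume_pos
  have hcpos : 0 < c := by
    have h : IsUnit (LinearMap.det A) :=
      ((L.trans (LinearEquiv.funCongrLeft ℝ ℝ σ)).isUnit_det')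
    exact abs_pos.2 h.ne_zero
  set T := (fun x => v + L x) '' K with hT
  have hVT : volume.real T = c * volume.real K := by
    have := hint (fun _ => 1)
    rw [setIntegral_const, setIntegral_const, smul_eq_mul, smul_eq_mul, mul_one, mul_one] at this
    exact this
  set M : Matrix ι ι ℝ := LinearMap.toMatrix' A with hM
  have hMA : ∀ x i, L x (σ i) = (M i) ⬝ᵥ x := by
    intro x i
    have : A x i = L x (σ i) := rfl
    rw [← this, ← LinearMap.toMatrix'_mulVec A x]
    rfl
  have hb : ∀ i, bodyCentroid T (σ i) = v (σ i) + M i ⬝ᵥ bodyCentroid K := by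
    intro i
    have hi : IntegrableOn (fun x : ι → ℝ => M i ⬝ᵥ x) K :=
      integrableOn_of_continuous hK.compact (by simp only [dotProduct]; fun_prop)
    rw [bodyCentroid, hVT, hT, hint]
    simp only [Pi.add_apply, hMA, ← hA, ← hc]
    rw [integral_add (integrableOn_of_continuous hK.compact continuous_const) hi,
      setIntegral_const, ← dotProduct_centroid hK, smul_eq_mul]
    field_simp
  have hcov : (covMatrix T).submatrix σ σ = M * covMatrix K * Mᵀ := by
    ext i j
    set b := bodyCentroid K with hbd
    simp only [submatrix_apply, covMatrix, hVT]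
    rw [hT, hint]
    simp only [← hT, hb, Pi.add_apply, hMA, ← hA, ← hc]
    have e : ∀ x : ι → ℝ, (v (σ i) + M i ⬝ᵥ x - (v (σ i) + M i ⬝ᵥ b)) *
        (v (σ j) + M j ⬝ᵥ x - (v (σ j) + M j ⬝ᵥ b)) =
        ∑ k, ∑ l, M i k * M j l * ((x k - b k) * (x l - b l)) := by
      intro x
      rw [add_sub_add_left_eq_sub, add_sub_add_left_eq_sub, ← dotProduct_sub, ← dotProduct_sub,
        dotProduct, dotProduct, Finset.sum_mul_sum]
      refine Finset.sum_congr rfl fun k _ => Finset.sum_congr rfl fun l _ => ?_
      simp [Pi.sub_apply]; ring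
    simp_rw [e]
    have h1 : ∀ k ∈ (Finset.univ : Finset ι), Integrable
        (fun x : ι → ℝ => ∑ l, M i k * M j l * ((x k - b k) * (x l - b l))) (volume.restrict K) :=
      fun k _ => integrableOn_of_continuous hK.compact (by fun_prop)
    rw [integral_finsetSum _ h1]
    simp only [Matrix.mul_apply, Matrix.transpose_apply, covMatrix, ← hbd, Finset.sum_mul]
    conv_rhs => rw [Finset.sum_comm]
    rw [Finset.mul_sum, Finset.mul_sum]
    refine Finset.sum_congr rfl fun k _ => ?_
    have h2 : ∀ l ∈ (Finset.univ : Finset ι), Integrable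
        (fun x : ι → ℝ => M i k * M j l * ((x k - b k) * (x l - b l))) (volume.restrict K) :=
      fun l _ => integrableOn_of_continuous hK.compact (by fun_prop)
    rw [integral_finsetSum _ h2, Finset.mul_sum, Finset.mul_sum]
    refine Finset.sum_congr rfl fun l _ => ?_
    rw [integral_const_mul]
    field_simp
  have hdet : (covMatrix T).det = c ^ 2 * (covMatrix K).det := by
    rw [← det_submatrix_equiv_self σ, hcov, det_mul, det_mul, det_transpose, hM,
      LinearMap.det_toMatrix', hc, sq_abs]
    ring
  rw [hdet, hVT]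
  field_simp

lemma ratio_affine_image {K : Set (ι → ℝ)} (hK : IsBody K) (L : (ι → ℝ) ≃ₗ[ℝ] (κ → ℝ))
    (v : κ → ℝ) (h0 : (0 : κ → ℝ) ∈ (fun x => v + L x) '' K) :
    ratio ((fun x => v + L x) '' K) = ratio K := by
  have h := disp_affine_image hK L v
  have hcard : Fintype.card κ = Fintype.card ι := by simpa using L.symm.finrank_eq
  rw [det_cov_div hK, det_cov_div (hK.affine_image L v h0), hcard] at h
  rw [mul_div_assoc, mul_div_assoc] at h
  exact mul_right_cancel₀ (simplexDisp_pos (Fintype.card ι)).ne' h

lemma isoConst_affine_image {K : Set (ι → ℝ)} (hK : IsBody K) (L : (ι → ℝ) ≃ₗ[ℝ] (κ → ℝ))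
    (v : κ → ℝ) : isoConst ((fun x => v + L x) '' K) = isoConst K := by
  have hcard : Fintype.card κ = Fintype.card ι := by simpa using L.symm.finrank_eq
  rw [isoConst, isoConst, disp_affine_image hK L v, hcard]

end Vale.Agent.P254
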