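import Vale.Agent.P254.Tensor

/-!
The simplex constant tends to `1/e`; amplification of the isotropic constant by joins.
-/

open MeasureTheory Set Filter Topology

namespace Vale.Agent.P254

lemma factorial_bounds (n : ℕ) (hn : 1 ≤ n) :
    (n : ℝ) ^ n * Real.exp (-n) ≤ (n.factorial : ℝ) ∧
      (n.factorial : ℝ) ≤ Real.exp 1 * n * ((n : ℝ) ^ n * Real.exp (-n)) := by
  constructor
  · have h := Real.pow_div_factorial_le_exp (n : ℝ) (by positivity) n
    rw [div_le_iff₀ (by positivity)] at h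
    calc (n : ℝ) ^ n * Real.exp (-n) ≤ Real.exp n * n.factorial * Real.exp (-n) := by gcongr
      _ = n.factorial := by rw [Real.exp_neg]; field_simp
  · induction n, hn using Nat.le_induction with
    | base => norm_num [Real.exp_neg]
    | succ n hn ih =>
      have hn0 : (0 : ℝ) < n := by exact_mod_cast hn
      have hb : Real.exp 1 * (n : ℝ) ^ (n + 1) ≤ ((n : ℝ) + 1) ^ (n + 1) := by
        have h1 : (n : ℝ) / (n + 1) ≤ Real.exp (-(1 / ((n : ℝ) + 1))) := by
          have := Real.add_one_le_exp (-(1 / ((n : ℝ) + 1)))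
          have e : (n : ℝ) / (n + 1) = -(1 / ((n : ℝ) + 1)) + 1 := by field_simp; ring
          linarith
        have h2 := pow_le_pow_left₀ (by positivity) h1 (n + 1)
        rw [← Real.exp_nat_mul, div_pow] at h2
        have e : ((n + 1 : ℕ) : ℝ) * -(1 / ((n : ℝ) + 1)) = -1 := by push_cast; field_simp
        rw [e, div_le_iff₀ (by positivity), Real.exp_neg] at h2
        calc Real.exp 1 * (n : ℝ) ^ (n + 1)
            ≤ Real.exp 1 * ((Real.exp 1)⁻¹ * ((n : ℝ) + 1) ^ (n + 1)) :=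
              mul_le_mul_of_nonneg_left h2 (Real.exp_pos 1).le
          _ = _ := by field_simp
      calc ((n + 1).factorial : ℝ) = ((n : ℝ) + 1) * n.factorial := by
            rw [Nat.factorial_succ]; push_cast; ring
        _ ≤ ((n : ℝ) + 1) * (Real.exp 1 * n * ((n : ℝ) ^ n * Real.exp (-n))) := by gcongr
        _ = ((n : ℝ) + 1) * (Real.exp 1 * (n : ℝ) ^ (n + 1)) * Real.exp (-n) := by ring
        _ ≤ ((n : ℝ) + 1) * ((n : ℝ) + 1) ^ (n + 1) * Real.exp (-n) := by gcongr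
        _ = _ := by
          push_cast
          rw [show -((n : ℝ) + 1) = -(n : ℝ) + -1 by ring, Real.exp_add, Real.exp_neg 1]
          field_simp

lemma simplexDisp_le (n : ℕ) (hn : 1 ≤ n) :
    simplexDisp n ≤ Real.exp 2 * n * Real.exp (-2 * n) := by
  obtain ⟨-, h⟩ := factorial_bounds n hn
  unfold simplexDisp
  rw [div_le_iff₀ (by positivity)]
  have hn0 : (0 : ℝ) ≤ n := n.cast_nonneg
  calc (n.factorial : ℝ) ^ 2 ≤ (Real.exp 1 * n * ((n : ℝ) ^ n * Real.exp (-n))) ^ 2 := by gcongr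
    _ = Real.exp 2 * n * Real.exp (-2 * n) * ((n : ℝ) ^ (n + 1) * (n : ℝ) ^ n) := by
      rw [show (2 : ℝ) = 1 + 1 by norm_num, show -(1 + 1) * (n : ℝ) = -(n : ℝ) + -(n : ℝ) by ring,
        Real.exp_add, Real.exp_add]
      ring
    _ ≤ _ := by gcongr <;> linarith

lemma le_simplexDisp (n : ℕ) (hn : 1 ≤ n) :
    Real.exp (-3) * Real.exp (-2 * n) / ((n : ℝ) + 1) ≤ simplexDisp n := by
  obtain ⟨h, -⟩ := factorial_bounds n hn
  have hn0 : (0 : ℝ) < n := by exact_mod_cast hn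
  have hpow : ∀ a : ℕ, ((n : ℝ) + a) ^ n ≤ Real.exp a * (n : ℝ) ^ n := by
    intro a
    have h1 : ((n : ℝ) + a) ≤ n * Real.exp (a / n) := by
      have := Real.add_one_le_exp ((a : ℝ) / n)
      calc ((n : ℝ) + a) = n * (a / n + 1) := by field_simp; ring
        _ ≤ _ := by gcongr
    calc ((n : ℝ) + a) ^ n ≤ (n * Real.exp (a / n)) ^ n := by gcongr
      _ = _ := by rw [mul_pow, ← Real.exp_nat_mul]; field_simp
  have h1 := hpow 1
  have h2 := hpow 2
  push_cast at h1 h2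
  have key : ((n : ℝ) + 1) ^ (n + 1) * ((n : ℝ) + 2) ^ n ≤
      (Real.exp 1 * (n : ℝ) ^ n * ((n : ℝ) + 1)) * (Real.exp 2 * (n : ℝ) ^ n) := by
    rw [pow_succ]; gcongr
  unfold simplexDisp
  rw [div_le_div_iff₀ (by positivity) (by positivity)]
  calc Real.exp (-3) * Real.exp (-2 * n) * (((n : ℝ) + 1) ^ (n + 1) * ((n : ℝ) + 2) ^ n)
      ≤ Real.exp (-3) * Real.exp (-2 * n) *
        ((Real.exp 1 * (n : ℝ) ^ n * ((n : ℝ) + 1)) * (Real.exp 2 * (n : ℝ) ^ n)) := by gcongr
    _ = ((n : ℝ) ^ n * Real.exp (-n)) ^ 2 * ((n : ℝ) + 1) := by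
      rw [Real.exp_neg 3, show (3 : ℝ) = 1 + 2 by norm_num,
        show -2 * (n : ℝ) = -(n : ℝ) + -(n : ℝ) by ring, Real.exp_add, Real.exp_add]
      field_simp
    _ ≤ _ := by gcongr

/-- For every `ε > 0` the simplex constant is eventually below `1/e + ε`. -/
lemma eventually_simplexConst_le {ε : ℝ} (hε : 0 < ε) :
    ∀ᶠ n : ℕ in atTop, simplexConst n ≤ 1 / Real.exp 1 + ε := by
  set q : ℝ := 1 + Real.exp 1 * ε
  have he := Real.exp_pos 1
  have hq : 1 < q ^ 2 := by
    have : 1 < q := by have : 0 < Real.exp 1 * ε := by positivity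
                       simp only [q]; linarith
    nlinarith
  have hlim : Tendsto (fun n : ℕ => (n : ℝ) ^ 1 / (q ^ 2) ^ n) atTop (𝓝 0) :=
    tendsto_pow_const_div_const_pow_of_one_lt 1 hq
  filter_upwards [hlim.eventually_le_const (show (0 : ℝ) < 1 / Real.exp 2 by positivity),
    eventually_ge_atTop 1] with n hn h1
  have e : (1 : ℝ) / (2 * n) = (((2 * n : ℕ) : ℝ))⁻¹ := by push_cast; rw [one_div]
  rw [simplexConst_eq, e, Real.rpow_inv_le_iff_of_pos (simplexDisp_pos n).le (by positivity)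
    (by exact_mod_cast (by omega : 0 < 2 * n)), Real.rpow_natCast]
  refine (simplexDisp_le n h1).trans ?_
  have e2 : 1 / Real.exp 1 + ε = q * Real.exp (-1) := by
    simp only [q, Real.exp_neg]; field_simp
  rw [e2, mul_pow, ← Real.exp_nat_mul, pow_mul]
  rw [pow_one, div_le_div_iff₀ (by positivity) (Real.exp_pos 2), one_mul] at hn
  calc Real.exp 2 * n * Real.exp (-2 * n) ≤ (q ^ 2) ^ n * Real.exp (-2 * n) := by
        gcongr; linarith
    _ = _ := by push_cast; ring_nf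

/-- An asymptotic bound on the isotropic constant amplifies to an exact bound in each dimension. -/
lemma ratio_le_of_asymptotic {C : ℝ} {n₀ : ℕ} (hC : 0 < C)
    (H : ∀ N, n₀ ≤ N → ∀ Q : Set (Fin N → ℝ), Convex ℝ Q → IsCompact Q →
      (interior Q).Nonempty → isoConst Q ≤ C)
    {ι : Type*} [Fintype ι] [DecidableEq ι] {K : Set (ι → ℝ)} (hK : IsBody K) :
    ratio K ≤ (Real.exp 1 * C) ^ (2 * (Fintype.card ι + 1)) := by
  set A := (Real.exp 1 * C) ^ (2 * (Fintype.card ι + 1)) with hA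
  set m := Fintype.card ι + 1
  have hApos : 0 < A := by positivity
  by_contra! hlt
  set q := ratio K / A
  have hq : 1 < q := (one_lt_div hApos).2 hlt
  have hlim : Tendsto (fun k : ℕ => (k : ℝ) ^ 1 / q ^ k) atTop (𝓝 0) :=
    tendsto_pow_const_div_const_pow_of_one_lt 1 hq
  obtain ⟨j, hj, hjn⟩ := ((hlim.eventually_lt_const
    (show (0 : ℝ) < 1 / (Real.exp 3 * (2 * (m : ℝ))) by positivity)).and
      (eventually_ge_atTop (n₀ + 1))).exists
  obtain ⟨k, rfl⟩ : ∃ k, j = k + 1 := ⟨j - 1, by omega⟩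
  obtain ⟨α, iα, dα, Q, hQ, -, cQ, rQ⟩ := exists_power hK k
  set N := (k + 1) * (Fintype.card ι + 1) with hN
  obtain ⟨Q', hQ', -, rQ'⟩ := exists_reindex hQ (Fintype.equivFinOfCardEq cQ)
  have hN1 : 1 ≤ N := Nat.one_le_iff_ne_zero.2 (by positivity)
  have hNn : n₀ ≤ N := by
    have : k + 1 ≤ N := Nat.le_mul_of_pos_right _ (Nat.succ_pos _)
    omega
  have h := H N hNn Q' hQ'.convex hQ'.compact hQ'.interior_nonempty
  have e : (1 : ℝ) / (2 * N) = (((2 * N : ℕ) : ℝ))⁻¹ := by push_cast; rw [one_div]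
  rw [isoConst_eq hQ', rQ', rQ, Fintype.card_fin, e,
    Real.rpow_inv_le_iff_of_pos (mul_pos (pow_pos hK.ratio_pos _) (simplexDisp_pos N)).le
      hC.le (by exact_mod_cast (by omega : 0 < 2 * N)), Real.rpow_natCast] at h
  have h2 := (mul_le_mul_of_nonneg_left (le_simplexDisp N hN1) (pow_nonneg hK.ratio_pos.le _)).trans h
  have hAk : A ^ (k + 1) = C ^ (2 * N) * Real.exp (2 * N) := by
    have hexp : 2 * m * (k + 1) = 2 * N := by simp only [hN, m]; ring
    rw [hA, ← pow_mul, hexp, mul_pow, ← Real.exp_nat_mul, mul_comm]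
    push_cast; ring_nf
  have h3 : q ^ (k + 1) ≤ Real.exp 3 * ((N : ℝ) + 1) := by
    rw [div_pow, div_le_iff₀ (pow_pos hApos _), hAk]
    rw [mul_div_assoc', div_le_iff₀ (by positivity), Real.exp_neg,
      show -2 * (N : ℝ) = -(2 * (N : ℝ)) by ring, Real.exp_neg] at h2
    field_simp at h2
    linarith
  have h4 : (N : ℝ) + 1 ≤ 2 * (m : ℝ) * ((k : ℝ) + 1) := by
    have : (1 : ℝ) ≤ N := by exact_mod_cast hN1
    have : (N : ℝ) = ((k : ℝ) + 1) * m := by rw [hN]; push_cast [m]; ring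
    nlinarith
  rw [pow_one, div_lt_div_iff₀ (by positivity) (by positivity), one_mul] at hj
  push_cast at hj
  have h5 : Real.exp 3 * ((N : ℝ) + 1) ≤ Real.exp 3 * (2 * (m : ℝ) * ((k : ℝ) + 1)) := by gcongr
  nlinarith

end Vale.Agent.P254
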