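import Vale.Agent.P254.Moments

/-!
The covariance of a free sum in terms of the covariances of the summands.
-/

open MeasureTheory Set Matrix
open scoped Pointwise

namespace Vale.Agent.P254

variable {ι κ : Type*} [Fintype ι] [Fintype κ]

/-- `(n + 1)` times the centroid. -/
noncomputable def coneMean (K : Set (ι → ℝ)) : ι → ℝ :=
  ((Fintype.card ι : ℝ) + 1) • bodyCentroid K

/-- The covariance of the exponential measure of the body. -/
noncomputable def coneCov (K : Set (ι → ℝ)) : Matrix ι ι ℝ :=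
  (((Fintype.card ι : ℝ) + 1) * ((Fintype.card ι : ℝ) + 2)) • covMatrix K +
    ((Fintype.card ι : ℝ) + 1) • vecMulVec (bodyCentroid K) (bodyCentroid K)

/-- One plus the residual variance of the gauge. -/
noncomputable def slack [DecidableEq ι] (K : Set (ι → ℝ)) : ℝ :=
  (Fintype.card ι : ℝ) + 1 - coneMean K ⬝ᵥ ((coneCov K)⁻¹ *ᵥ coneMean K)

/-- The quantity `det Σ / |K|^2`, divided by its value for a simplex. -/
noncomputable def ratio [DecidableEq ι] (K : Set (ι → ℝ)) : ℝ :=
  (coneCov K).det * slack K / ((Fintype.card ι).factorial * volume.real K) ^ 2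

lemma IsBody.volume_pos {K : Set (ι → ℝ)} (hK : IsBody K) : 0 < volume.real K := by
  refine ENNReal.toReal_pos ?_ hK.compact.measure_lt_top.ne
  exact (Measure.measure_pos_of_nonempty_interior _ hK.interior_nonempty).ne'

lemma integrableOn_of_continuous {K : Set (ι → ℝ)} (hK : IsCompact K) {f : (ι → ℝ) → ℝ}
    (hf : Continuous f) : IntegrableOn f K :=
  hf.continuousOn.integrableOn_compact hK

lemma covMatrix_eq_raw {K : Set (ι → ℝ)} (hK : IsCompact K) (hV : 0 < volume.real K) (i j : ι) :
    covMatrix K i j =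
      (volume.real K)⁻¹ * (∫ x in K, x i * x j) - bodyCentroid K i * bodyCentroid K j := by
  have hi : IntegrableOn (fun x : ι → ℝ => x i * x j) K :=
    integrableOn_of_continuous hK (by fun_prop)
  set a := bodyCentroid K i with ha
  set b := bodyCentroid K j with hb
  have e : ∀ x : ι → ℝ, (x i - a) * (x j - b) = x i * x j - b * x i - a * x j + a * b := by
    intro x; ring
  have h1 : IntegrableOn (fun x : ι → ℝ => b * x i) K :=
    integrableOn_of_continuous hK (by fun_prop)
  have h2 : IntegrableOn (fun x : ι → ℝ => a * x j) K :=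
    integrableOn_of_continuous hK (by fun_prop)
  have h3 : IntegrableOn (fun _ : ι → ℝ => a * b) K :=
    integrableOn_of_continuous hK continuous_const
  simp only [covMatrix, ← ha, ← hb]
  simp only [e]
  have h4 : IntegrableOn (fun x : ι → ℝ => x i * x j - b * x i) K := hi.sub h1
  have h5 : IntegrableOn (fun x : ι → ℝ => x i * x j - b * x i - a * x j) K := h4.sub h2
  rw [integral_add h5 h3, integral_sub h4 h2, integral_sub hi h1,
    integral_const_mul, integral_const_mul, setIntegral_const, smul_eq_mul]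
  have a1 : ∫ x in K, x i = volume.real K * a := by rw [ha, bodyCentroid]; field_simp
  have b1 : ∫ x in K, x j = volume.real K * b := by rw [hb, bodyCentroid]; field_simp
  rw [a1, b1]
  field_simp
  ring

lemma coneCov_eq_raw {K : Set (ι → ℝ)} (hK : IsCompact K) (hV : 0 < volume.real K) (i j : ι) :
    coneCov K i j = ((Fintype.card ι : ℝ) + 1) * ((Fintype.card ι : ℝ) + 2) *
      ((volume.real K)⁻¹ * ∫ x in K, x i * x j) - coneMean K i * coneMean K j := by
  simp only [coneCov, coneMean, Matrix.add_apply, Matrix.smul_apply, vecMulVec_apply, Pi.smul_apply, smul_eq_mul,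
    covMatrix_eq_raw hK hV i j]
  ring

variable {K₁ : Set (ι → ℝ)} {K₂ : Set (κ → ℝ)}

lemma volume_freeSum (h₁ : IsBody K₁) (h₂ : IsBody K₂) :
    ((Fintype.card ι + Fintype.card κ).factorial : ℝ) * volume.real (freeSum K₁ K₂) =
      ((Fintype.card ι).factorial * volume.real K₁) *
        ((Fintype.card κ).factorial * volume.real K₂) := by
  have := integral_freeSum h₁ h₂ (f₁ := fun _ => 1) (f₂ := fun _ => 1) continuous_const
    continuous_const 0 0 (by intros; simp) (by intros; simp)
  simpa [setIntegral_const] using this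

lemma coneMean_freeSum_inl (h₁ : IsBody K₁) (h₂ : IsBody K₂) (i : ι) :
    coneMean (freeSum K₁ K₂) (Sum.inl i) = coneMean K₁ i := by
  have hz := integral_freeSum h₁ h₂ (f₁ := fun x => x i) (f₂ := fun _ => 1) (continuous_apply i)
    continuous_const 1 0 (by intros; simp) (by intros; simp)
  simp [Nat.factorial_succ, setIntegral_const] at hz
  have hv := volume_freeSum h₁ h₂
  have := h₁.volume_pos
  have := h₂.volume_pos
  have hF := (IsBody.free_sum h₁ h₂).volume_pos
  simp only [coneMean, bodyCentroid, Pi.smul_apply, smul_eq_mul, Fintype.card_sum, Nat.cast_add]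
  field_simp
  have hne : ((Fintype.card ι + Fintype.card κ).factorial : ℝ) ≠ 0 := by positivity
  apply mul_left_cancel₀ hne
  linear_combination (volume.real K₁) * hz -
    ((Fintype.card ι : ℝ) + 1) * (∫ x in K₁, x i) * hv

lemma coneMean_freeSum_inr (h₁ : IsBody K₁) (h₂ : IsBody K₂) (j : κ) :
    coneMean (freeSum K₁ K₂) (Sum.inr j) = coneMean K₂ j := by
  have hz := integral_freeSum h₁ h₂ (f₁ := fun _ => 1) (f₂ := fun y => y j) continuous_const
    (continuous_apply j) 0 1 (by intros; simp) (by intros; simp)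
  simp [Nat.factorial_succ, setIntegral_const] at hz
  have hv := volume_freeSum h₁ h₂
  have := h₁.volume_pos
  have := h₂.volume_pos
  have hF := (IsBody.free_sum h₁ h₂).volume_pos
  simp only [coneMean, bodyCentroid, Pi.smul_apply, smul_eq_mul, Fintype.card_sum, Nat.cast_add]
  field_simp
  have hne : ((Fintype.card ι + Fintype.card κ).factorial : ℝ) ≠ 0 := by positivity
  apply mul_left_cancel₀ hne
  linear_combination (volume.real K₂) * hz -
    ((Fintype.card κ : ℝ) + 1) * (∫ y in K₂, y j) * hv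

lemma coneCov_freeSum_inl_inl (h₁ : IsBody K₁) (h₂ : IsBody K₂) (i i' : ι) :
    coneCov (freeSum K₁ K₂) (Sum.inl i) (Sum.inl i') = coneCov K₁ i i' := by
  have hz := integral_freeSum h₁ h₂ (f₁ := fun x => x i * x i') (f₂ := fun _ => 1)
    (by fun_prop) continuous_const 2 0 (by intros; simp; ring) (by intros; simp)
  simp [Nat.factorial_succ, setIntegral_const] at hz
  have hv := volume_freeSum h₁ h₂
  have := h₁.volume_pos
  have := h₂.volume_pos
  have hF := IsBody.free_sum h₁ h₂
  have := hF.volume_pos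
  rw [coneCov_eq_raw hF.compact hF.volume_pos, coneCov_eq_raw h₁.compact h₁.volume_pos,
    coneMean_freeSum_inl h₁ h₂, coneMean_freeSum_inl h₁ h₂]
  congr 1
  simp only [Fintype.card_sum, Nat.cast_add]
  field_simp
  have hne : ((Fintype.card ι + Fintype.card κ).factorial : ℝ) ≠ 0 := by positivity
  apply mul_left_cancel₀ hne
  linear_combination (volume.real K₁) * hz -
    ((Fintype.card ι : ℝ) + 1) * ((Fintype.card ι : ℝ) + 2) * (∫ x in K₁, x i * x i') * hv

lemma coneCov_freeSum_inr_inr (h₁ : IsBody K₁) (h₂ : IsBody K₂) (j j' : κ) :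
    coneCov (freeSum K₁ K₂) (Sum.inr j) (Sum.inr j') = coneCov K₂ j j' := by
  have hz := integral_freeSum h₁ h₂ (f₁ := fun _ => 1) (f₂ := fun y => y j * y j')
    continuous_const (by fun_prop) 0 2 (by intros; simp) (by intros; simp; ring)
  simp [Nat.factorial_succ, setIntegral_const] at hz
  have hv := volume_freeSum h₁ h₂
  have := h₁.volume_pos
  have := h₂.volume_pos
  have hF := IsBody.free_sum h₁ h₂
  have := hF.volume_pos
  rw [coneCov_eq_raw hF.compact hF.volume_pos, coneCov_eq_raw h₂.compact h₂.volume_pos,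
    coneMean_freeSum_inr h₁ h₂, coneMean_freeSum_inr h₁ h₂]
  congr 1
  simp only [Fintype.card_sum, Nat.cast_add]
  field_simp
  have hne : ((Fintype.card ι + Fintype.card κ).factorial : ℝ) ≠ 0 := by positivity
  apply mul_left_cancel₀ hne
  linear_combination (volume.real K₂) * hz -
    ((Fintype.card κ : ℝ) + 1) * ((Fintype.card κ : ℝ) + 2) * (∫ y in K₂, y j * y j') * hv

lemma coneCov_freeSum_inl_inr (h₁ : IsBody K₁) (h₂ : IsBody K₂) (i : ι) (j : κ) :
    coneCov (freeSum K₁ K₂) (Sum.inl i) (Sum.inr j) = 0 := by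
  have hz := integral_freeSum h₁ h₂ (f₁ := fun x => x i) (f₂ := fun y => y j)
    (continuous_apply i) (continuous_apply j) 1 1 (by intros; simp) (by intros; simp)
  simp [Nat.factorial_succ] at hz
  have hv := volume_freeSum h₁ h₂
  have := h₁.volume_pos
  have := h₂.volume_pos
  have hF := IsBody.free_sum h₁ h₂
  have := hF.volume_pos
  rw [coneCov_eq_raw hF.compact hF.volume_pos, coneMean_freeSum_inl h₁ h₂,
    coneMean_freeSum_inr h₁ h₂]
  simp only [coneMean, bodyCentroid, Pi.smul_apply, smul_eq_mul, Fintype.card_sum, Nat.cast_add]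
  field_simp
  simp only [mul_zero, sub_eq_zero]
  have hne : ((Fintype.card ι + Fintype.card κ).factorial : ℝ) ≠ 0 := by positivity
  apply mul_left_cancel₀ hne
  linear_combination (volume.real K₁ * volume.real K₂) * hz -
    ((Fintype.card ι : ℝ) + 1) * ((Fintype.card κ : ℝ) + 1) *
      (∫ x in K₁, x i) * (∫ y in K₂, y j) * hv

lemma coneCov_symm (K : Set (ι → ℝ)) (i j : ι) : coneCov K i j = coneCov K j i := by
  simp only [coneCov, covMatrix, Matrix.add_apply, Matrix.smul_apply, vecMulVec_apply, smul_eq_mul]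
  simp_rw [mul_comm (_ - bodyCentroid K i)]
  ring

lemma coneCov_freeSum (h₁ : IsBody K₁) (h₂ : IsBody K₂) :
    coneCov (freeSum K₁ K₂) = fromBlocks (coneCov K₁) 0 0 (coneCov K₂) := by
  ext (i | i) (j | j)
  · simp [coneCov_freeSum_inl_inl h₁ h₂]
  · simp [coneCov_freeSum_inl_inr h₁ h₂]
  · simp [coneCov_symm _ (Sum.inr i), coneCov_freeSum_inl_inr h₁ h₂]
  · simp [coneCov_freeSum_inr_inr h₁ h₂]

variable [DecidableEq ι] [DecidableEq κ]

lemma slack_freeSum (h₁ : IsBody K₁) (h₂ : IsBody K₂) (d₁ : IsUnit (coneCov K₁).det)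
    (d₂ : IsUnit (coneCov K₂).det) :
    slack (freeSum K₁ K₂) = slack K₁ + slack K₂ - 1 := by
  have hm : coneMean (freeSum K₁ K₂) = Sum.elim (coneMean K₁) (coneMean K₂) := by
    ext (i | i)
    · simp [coneMean_freeSum_inl h₁ h₂]
    · simp [coneMean_freeSum_inr h₁ h₂]
  have hi : (fromBlocks (coneCov K₁) 0 0 (coneCov K₂))⁻¹ =
      fromBlocks (coneCov K₁)⁻¹ 0 0 (coneCov K₂)⁻¹ := by
    apply inv_eq_right_inv
    simp [fromBlocks_multiply, mul_nonsing_inv _ d₁, mul_nonsing_inv _ d₂]
  simp only [slack, coneCov_freeSum h₁ h₂, hi, hm, fromBlocks_mulVec, Fintype.card_sum,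
    Nat.cast_add, sumElim_dotProduct_sumElim]
  simp
  ring

lemma ratio_freeSum (h₁ : IsBody K₁) (h₂ : IsBody K₂) (d₁ : IsUnit (coneCov K₁).det)
    (d₂ : IsUnit (coneCov K₂).det) (s₁ : slack K₁ ≠ 0) (s₂ : slack K₂ ≠ 0) :
    ratio (freeSum K₁ K₂) =
      ratio K₁ * ratio K₂ * ((slack K₁ + slack K₂ - 1) / (slack K₁ * slack K₂)) := by
  simp only [ratio, slack_freeSum h₁ h₂ d₁ d₂, coneCov_freeSum h₁ h₂, det_fromBlocks_zero₁₂,
    Fintype.card_sum, volume_freeSum h₁ h₂]
  have := h₁.volume_pos
  have := h₂.volume_pos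
  field_simp

end Vale.Agent.P254
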