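import Mathlib

/-!
Basic notions for the isotropic constant of a set in a finite-dimensional coordinate space.
-/

open MeasureTheory Set
open scoped Pointwise

namespace Vale.Agent.P254

variable {ι κ : Type*} [Fintype ι] [Fintype κ]

/-- The centroid of `K` for Lebesgue measure. -/
noncomputable def bodyCentroid (K : Set (ι → ℝ)) : ι → ℝ :=
  fun i => (volume.real K)⁻¹ * ∫ x in K, x i

/-- The covariance matrix of the uniform probability measure on `K`. -/
noncomputable def covMatrix (K : Set (ι → ℝ)) : Matrix ι ι ℝ :=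
  fun i j => (volume.real K)⁻¹ *
    ∫ x in K, (x i - bodyCentroid K i) * (x j - bodyCentroid K j)

/-- The isotropic constant `(det Σ_K / |K|^2)^(1/(2n))`. -/
noncomputable def isoConst [DecidableEq ι] (K : Set (ι → ℝ)) : ℝ :=
  ((covMatrix K).det / (volume.real K) ^ 2) ^ ((1 : ℝ) / (2 * (Fintype.card ι : ℝ)))

/-- The standard simplex with vertices `0` and the coordinate vectors. -/
def cornerSimplex (ι : Type*) [Fintype ι] : Set (ι → ℝ) :=
  {x | (∀ i, 0 ≤ x i) ∧ ∑ i, x i ≤ 1}

/-- The isotropic constant of an `n`-simplex. -/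
noncomputable def simplexConst (n : ℕ) : ℝ := isoConst (cornerSimplex (Fin n))

/-- `K` is a full-dimensional simplex. -/
def IsFullSimplex (K : Set (ι → ℝ)) : Prop :=
  ∃ p : Fin (Fintype.card ι + 1) → (ι → ℝ),
    AffineIndependent ℝ p ∧ K = convexHull ℝ (range p)

/-- The free sum: the convex hull of `K₁ × 0` and `0 × K₂`. -/
def freeSum (K₁ : Set (ι → ℝ)) (K₂ : Set (κ → ℝ)) : Set (ι ⊕ κ → ℝ) :=
  convexHull ℝ ((fun x => Sum.elim x (0 : κ → ℝ)) '' K₁ ∪
    (fun y => Sum.elim (0 : ι → ℝ) y) '' K₂)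

end Vale.Agent.P254
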