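import Vale.Agent.P254.Defs

/-!
Exponential moments of convex bodies containing the origin and their factorization over free sums.
-/

open MeasureTheory Set
open scoped Pointwise

namespace Vale.Agent.P254

variable {ι κ : Type*} [Fintype ι] [Fintype κ]

/-- A convex body containing the origin. -/
structure IsBody (K : Set (ι → ℝ)) : Prop where
  convex : Convex ℝ K
  compact : IsCompact K
  interior_nonempty : (interior K).Nonempty
  zero_mem : (0 : ι → ℝ) ∈ K

/-- The set of dilation factors whose dilate contains `y`. -/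
def dilations (K : Set (ι → ℝ)) (y : ι → ℝ) : Set ℝ := {t | 0 ≤ t ∧ y ∈ t • K}

/-- The weight `∫ exp (-t) 1_{tK} (y) dt`. -/
noncomputable def expWeight (K : Set (ι → ℝ)) (y : ι → ℝ) : ℝ :=
  ∫ t in Ioi (0 : ℝ), (dilations K y).indicator (fun t => Real.exp (-t)) t

lemma dilations_mono {K : Set (ι → ℝ)} (hc : Convex ℝ K) (h0 : (0 : ι → ℝ) ∈ K)
    {y : ι → ℝ} {t t' : ℝ} (ht : t ∈ dilations K y) (h : t ≤ t') :
    t' ∈ dilations K y := by
  obtain ⟨ht0, x, hx, rfl⟩ := ht
  refine ⟨ht0.trans h, ?_⟩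
  rcases (ht0.trans h).eq_or_lt with h' | h'
  · have : t = t' := by linarith
    exact this ▸ ⟨x, hx, rfl⟩
  · refine ⟨(t / t') • x, hc.smul_mem_of_zero_mem h0 hx
      ⟨div_nonneg ht0 h'.le, (div_le_one h').2 h⟩, ?_⟩
    simp only [smul_smul]
    rw [mul_div_cancel₀ t h'.ne']

lemma dilations_bddBelow (K : Set (ι → ℝ)) (y : ι → ℝ) : BddBelow (dilations K y) :=
  ⟨0, fun _ h => h.1⟩

lemma expWeight_of_empty {K : Set (ι → ℝ)} {y : ι → ℝ} (h : dilations K y = ∅) :
    expWeight K y = 0 := by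
  simp [expWeight, h]

lemma expWeight_of_nonempty {K : Set (ι → ℝ)} (hc : Convex ℝ K) (h0 : (0 : ι → ℝ) ∈ K)
    {y : ι → ℝ} (h : (dilations K y).Nonempty) :
    expWeight K y = Real.exp (-sInf (dilations K y)) := by
  set S := dilations K y with hS
  set a := sInf S
  have ha : 0 ≤ a := le_csInf h fun t ht => ht.1
  have h1 : ∀ t, a < t → t ∈ S := by
    intro t ht
    obtain ⟨s, hs, hst⟩ := (csInf_lt_iff (dilations_bddBelow K y) h).1 ht
    exact dilations_mono hc h0 hs hst.le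
  have h2 : ∀ t ∈ S, a ≤ t := fun t ht => csInf_le (dilations_bddBelow K y) ht
  have heq : S.indicator (fun t => Real.exp (-t)) =ᵐ[volume.restrict (Ioi (0 : ℝ))]
      (Ioi a).indicator (fun t => Real.exp (-t)) := by
    have : ∀ᵐ t ∂(volume.restrict (Ioi (0 : ℝ))), t ≠ a :=
      ae_restrict_of_ae (by simp [ae_iff])
    filter_upwards [this] with t ht
    by_cases hta : a < t
    · rw [indicator_of_mem (h1 t hta), indicator_of_mem (mem_Ioi.2 hta)]
    · have : t ∉ S := fun hm => ht (le_antisymm (not_lt.1 hta) (h2 t hm))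
      rw [indicator_of_notMem this, indicator_of_notMem (by simpa using hta)]
  have : expWeight K y = ∫ t in Ioi (0 : ℝ), (Ioi a).indicator (fun t => Real.exp (-t)) t :=
    integral_congr_ae heq
  rw [this, setIntegral_indicator measurableSet_Ioi, Ioi_inter_Ioi, max_eq_right ha,
    integral_exp_neg_Ioi]

lemma mem_freeSum {K₁ : Set (ι → ℝ)} {K₂ : Set (κ → ℝ)} (h₁ : Convex ℝ K₁) (h₂ : Convex ℝ K₂)
    (n₁ : K₁.Nonempty) (n₂ : K₂.Nonempty) {z : ι ⊕ κ → ℝ} :
    z ∈ freeSum K₁ K₂ ↔ ∃ a b : ℝ, 0 ≤ a ∧ 0 ≤ b ∧ a + b = 1 ∧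
      ∃ x ∈ K₁, ∃ y ∈ K₂, z = Sum.elim (a • x) (b • y) := by
  let L₁ : (ι → ℝ) →ₗ[ℝ] (ι ⊕ κ → ℝ) :=
    { toFun := fun x => Sum.elim x 0
      map_add' := fun x y => by ext (i | i) <;> simp
      map_smul' := fun c x => by ext (i | i) <;> simp }
  let L₂ : (κ → ℝ) →ₗ[ℝ] (ι ⊕ κ → ℝ) :=
    { toFun := fun x => Sum.elim 0 x
      map_add' := fun x y => by ext (i | i) <;> simp
      map_smul' := fun c x => by ext (i | i) <;> simp }
  have e₁ : convexHull ℝ (L₁ '' K₁) = L₁ '' K₁ := (h₁.linear_image L₁).convexHull_eq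
  have e₂ : convexHull ℝ (L₂ '' K₂) = L₂ '' K₂ := (h₂.linear_image L₂).convexHull_eq
  have e : freeSum K₁ K₂ = convexJoin ℝ (L₁ '' K₁) (L₂ '' K₂) := by
    have := convexHull_union (𝕜 := ℝ) (n₁.image L₁) (n₂.image L₂)
    rw [e₁, e₂] at this
    exact this
  rw [e, mem_convexJoin]
  constructor
  · rintro ⟨_, ⟨x, hx, rfl⟩, _, ⟨y, hy, rfl⟩, a, b, ha, hb, hab, rfl⟩
    refine ⟨a, b, ha, hb, hab, x, hx, y, hy, ?_⟩
    ext (i | i) <;> simp [L₁, L₂]
  · rintro ⟨a, b, ha, hb, hab, x, hx, y, hy, rfl⟩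
    refine ⟨L₁ x, ⟨x, hx, rfl⟩, L₂ y, ⟨y, hy, rfl⟩, a, b, ha, hb, hab, ?_⟩
    ext (i | i) <;> simp [L₁, L₂]

lemma IsBody.free_sum {K₁ : Set (ι → ℝ)} {K₂ : Set (κ → ℝ)} (h₁ : IsBody K₁)
    (h₂ : IsBody K₂) : IsBody (freeSum K₁ K₂) where
  convex := convex_convexHull ℝ _
  compact := by
    have : freeSum K₁ K₂ =
        (fun q : ℝ × (ι → ℝ) × (κ → ℝ) => Sum.elim (q.1 • q.2.1) ((1 - q.1) • q.2.2)) ''
          (Icc (0 : ℝ) 1 ×ˢ (K₁ ×ˢ K₂)) := by
      ext z
      rw [mem_freeSum h₁.convex h₂.convex ⟨0, h₁.zero_mem⟩ ⟨0, h₂.zero_mem⟩]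
      constructor
      · rintro ⟨a, b, ha, hb, hab, x, hx, y, hy, rfl⟩
        refine ⟨(a, x, y), ⟨⟨ha, by linarith⟩, hx, hy⟩, ?_⟩
        have : 1 - a = b := by linarith
        simp [this]
      · rintro ⟨⟨a, x, y⟩, ⟨⟨ha, ha'⟩, hx, hy⟩, rfl⟩
        exact ⟨a, 1 - a, ha, by linarith, by ring, x, hx, y, hy, rfl⟩
    rw [this]
    refine (isCompact_Icc.prod (h₁.compact.prod h₂.compact)).image ?_
    refine continuous_pi fun i => ?_
    rcases i with i | i <;> simp <;> fun_prop
  interior_nonempty := by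
    obtain ⟨x, hx⟩ := h₁.interior_nonempty
    obtain ⟨y, hy⟩ := h₂.interior_nonempty
    let U : Set (ι ⊕ κ → ℝ) := {w | (fun i => 2 * w (Sum.inl i)) ∈ interior K₁ ∧
      (fun i => 2 * w (Sum.inr i)) ∈ interior K₂}
    have hU : IsOpen U :=
      (isOpen_interior.preimage (by fun_prop)).inter (isOpen_interior.preimage (by fun_prop))
    have hsub : U ⊆ freeSum K₁ K₂ := by
      intro w hw
      rw [mem_freeSum h₁.convex h₂.convex ⟨0, h₁.zero_mem⟩ ⟨0, h₂.zero_mem⟩]
      refine ⟨1/2, 1/2, by norm_num, by norm_num, by norm_num, _, interior_subset hw.1, _,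
        interior_subset hw.2, ?_⟩
      ext (i | i) <;> simp
    refine ⟨Sum.elim ((1/2 : ℝ) • x) ((1/2 : ℝ) • y), interior_maximal hsub hU ⟨?_, ?_⟩⟩
    · convert hx using 1; ext i; simp
    · convert hy using 1; ext i; simp
  zero_mem := by
    rw [mem_freeSum h₁.convex h₂.convex ⟨0, h₁.zero_mem⟩ ⟨0, h₂.zero_mem⟩]
    refine ⟨1/2, 1/2, by norm_num, by norm_num, by norm_num, 0, h₁.zero_mem, 0, h₂.zero_mem, ?_⟩
    ext (i | i) <;> simp

lemma dilations_freeSum {K₁ : Set (ι → ℝ)} {K₂ : Set (κ → ℝ)} (h₁ : IsBody K₁)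
    (h₂ : IsBody K₂) (x : ι → ℝ) (y : κ → ℝ) :
    dilations (freeSum K₁ K₂) (Sum.elim x y) = dilations K₁ x + dilations K₂ y := by
  have hm := @mem_freeSum _ _ _ _ K₁ K₂ h₁.convex h₂.convex ⟨0, h₁.zero_mem⟩ ⟨0, h₂.zero_mem⟩
  ext t
  constructor
  · rintro ⟨ht, w, hw, he⟩
    obtain ⟨a, b, ha, hb, hab, u, hu, v, hv, rfl⟩ := hm.1 hw
    have hx : x = (t * a) • u := by
      ext i
      have := congr_fun he (Sum.inl i)
      simp at this ⊢
      linarith
    have hy : y = (t * b) • v := by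
      ext i
      have := congr_fun he (Sum.inr i)
      simp at this ⊢
      linarith
    refine Set.mem_add.2 ⟨t * a, ⟨mul_nonneg ht ha, hx ▸ smul_mem_smul_set hu⟩, t * b,
      ⟨mul_nonneg ht hb, hy ▸ smul_mem_smul_set hv⟩, ?_⟩
    rw [← mul_add, hab, mul_one]
  · rintro ⟨a, ⟨ha, u, hu, rfl⟩, b, ⟨hb, v, hv, rfl⟩, rfl⟩
    refine ⟨add_nonneg ha hb, ?_⟩
    rcases (add_nonneg ha hb).eq_or_lt with h | h
    · have ha0 : a = 0 := by linarith
      have hb0 : b = 0 := by linarith
      subst ha0 hb0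
      refine ⟨0, (IsBody.free_sum h₁ h₂).zero_mem, ?_⟩
      ext (i | i) <;> simp
    · refine ⟨Sum.elim ((a / (a + b)) • u) ((b / (a + b)) • v),
        hm.2 ⟨_, _, div_nonneg ha h.le, div_nonneg hb h.le, by field_simp,
          u, hu, v, hv, rfl⟩, ?_⟩
      ext (i | i) <;> simp <;> field_simp

lemma expWeight_freeSum {K₁ : Set (ι → ℝ)} {K₂ : Set (κ → ℝ)} (h₁ : IsBody K₁)
    (h₂ : IsBody K₂) (x : ι → ℝ) (y : κ → ℝ) :
    expWeight (freeSum K₁ K₂) (Sum.elim x y) = expWeight K₁ x * expWeight K₂ y := by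
  have e := dilations_freeSum h₁ h₂ x y
  rcases (dilations K₁ x).eq_empty_or_nonempty with hA | hA
  · rw [expWeight_of_empty hA, expWeight_of_empty (by rw [e, hA, Set.empty_add]), zero_mul]
  rcases (dilations K₂ y).eq_empty_or_nonempty with hB | hB
  · rw [expWeight_of_empty hB, expWeight_of_empty (by rw [e, hB, Set.add_empty]), mul_zero]
  have h := IsBody.free_sum h₁ h₂
  rw [expWeight_of_nonempty h₁.convex h₁.zero_mem hA,
    expWeight_of_nonempty h₂.convex h₂.zero_mem hB,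
    expWeight_of_nonempty h.convex h.zero_mem (by rw [e]; exact hA.add hB), ← Real.exp_add, e,
    csInf_add hA (dilations_bddBelow _ _) hB (dilations_bddBelow _ _)]
  ring_nf

/-- Integrals against the exponential weight are factorial multiples of integrals over the body. -/
lemma integral_expWeight_mul {K : Set (ι → ℝ)} (hK : IsCompact K) {f : (ι → ℝ) → ℝ}
    (hf : Continuous f) (d : ℕ) (hom : ∀ t : ℝ, 0 < t → ∀ x, f (t • x) = t ^ d * f x) :
    ∫ y, expWeight K y * f y =
      ((Fintype.card ι + d).factorial : ℝ) * ∫ x in K, f x := by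
  set m := Fintype.card ι
  set μ : Measure ℝ := volume.restrict (Ioi (0 : ℝ))
  let A : Set ((ι → ℝ) × ℝ) := {p | 0 < p.2 ∧ p.2⁻¹ • p.1 ∈ K}
  have hA : MeasurableSet A :=
    (measurableSet_lt measurable_const measurable_snd).inter
      (hK.measurableSet.preimage (by fun_prop))
  let F : (ι → ℝ) × ℝ → ℝ := A.indicator fun p => Real.exp (-p.2) * f p.1
  have hsec : ∀ t, 0 < t → (fun y => F (y, t)) =
      (t • K).indicator fun y => Real.exp (-t) * f y := by
    intro t ht
    ext y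
    have : (y, t) ∈ A ↔ y ∈ t • K := by
      rw [Set.mem_smul_set_iff_inv_smul_mem₀ ht.ne']
      simp [A, ht]
    by_cases hy : y ∈ t • K
    · simp [F, indicator_of_mem (this.2 hy), indicator_of_mem hy]
    · simp [F, indicator_of_notMem (this.not.2 hy), indicator_of_notMem hy]
  have hint : ∀ t, 0 < t → ∀ g : (ι → ℝ) → ℝ, (∀ x, g (t • x) = t ^ d * g x) →
      ∫ y, (t • K).indicator (fun y => Real.exp (-t) * g y) y =
        Real.exp (-t) * t ^ (m + d) * ∫ x in K, g x := by
    intro t ht g hg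
    rw [integral_indicator ((hK.smul t).measurableSet), integral_const_mul]
    have h := Measure.setIntegral_comp_smul_of_pos volume g K ht
    simp only [Module.finrank_pi, smul_eq_mul] at h
    simp_rw [hg] at h
    rw [integral_const_mul] at h
    have htm : t ^ m ≠ 0 := by positivity
    have : ∫ x in t • K, g x = t ^ m * (t ^ d * ∫ x in K, g x) := by
      rw [h]; field_simp; ring
    rw [this, pow_add]; ring
  have hG : Integrable (fun t : ℝ => Real.exp (-t) * t ^ (m + d)) μ := by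
    have := Real.GammaIntegral_convergent (s := ((m + d : ℕ) : ℝ) + 1) (by positivity)
    refine (this.congr_fun (fun t _ => ?_) measurableSet_Ioi)
    simp only [add_sub_cancel_right, Real.rpow_natCast]
  have hGval : ∫ t, Real.exp (-t) * t ^ (m + d) ∂μ = ((m + d).factorial : ℝ) := by
    rw [← Real.Gamma_nat_eq_factorial, Real.Gamma_eq_integral (by positivity)]
    refine setIntegral_congr_fun measurableSet_Ioi fun t _ => ?_
    simp only [add_sub_cancel_right, Real.rpow_natCast]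
  have hFm : AEStronglyMeasurable F (volume.prod μ) :=
    (((Real.continuous_exp.comp (continuous_neg.comp continuous_snd)).mul
      (hf.comp continuous_fst)).measurable.indicator hA).aestronglyMeasurable
  have hFi : Integrable F (volume.prod μ) := by
    refine (integrable_prod_iff' hFm).2 ⟨?_, ?_⟩
    · refine (ae_restrict_mem measurableSet_Ioi).mono fun t ht => ?_
      rw [hsec t ht, integrable_indicator_iff (hK.smul t).measurableSet]
      exact (continuous_const.mul hf).continuousOn.integrableOn_compact (hK.smul t)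
    · refine (hG.mul_const (∫ x in K, |f x|)).congr ?_
      refine (ae_restrict_mem measurableSet_Ioi).mono fun t ht => ?_
      rw [mem_Ioi] at ht
      have hg : ∀ x, |f (t • x)| = t ^ d * |f x| := fun x => by
        rw [hom t ht x, abs_mul, abs_of_pos (pow_pos ht d)]
      beta_reduce
      rw [← hint t ht (fun x => |f x|) hg]
      refine integral_congr_ae (Filter.Eventually.of_forall fun y => ?_)
      have := congr_fun (hsec t ht) y
      simp only at this ⊢
      rw [this, norm_indicator_eq_indicator_norm]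
      simp [abs_mul, Real.abs_exp]
  have h1 : ∀ y, expWeight K y * f y = ∫ t, F (y, t) ∂μ := by
    intro y
    rw [expWeight, ← integral_mul_const]
    refine setIntegral_congr_fun measurableSet_Ioi fun t ht => ?_
    rw [mem_Ioi] at ht
    have := congr_fun (hsec t ht) y
    beta_reduce at this ⊢
    rw [this]
    by_cases hy : y ∈ t • K
    · simp [dilations, indicator, hy, ht.le]
    · simp [dilations, indicator, hy]
  simp_rw [h1]
  rw [integral_integral_swap (f := fun y t => F (y, t)) hFi]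
  calc ∫ t, (∫ y, F (y, t)) ∂μ
      = ∫ t, (Real.exp (-t) * t ^ (m + d) * ∫ x in K, f x) ∂μ := by
        refine setIntegral_congr_fun measurableSet_Ioi fun t ht => ?_
        simp only [hsec t ht]
        exact hint t ht f (fun x => hom t ht x)
    _ = _ := by rw [integral_mul_const, hGval]

/-- Moments of a free sum factor. -/
lemma integral_freeSum {K₁ : Set (ι → ℝ)} {K₂ : Set (κ → ℝ)} (h₁ : IsBody K₁) (h₂ : IsBody K₂)
    {f₁ : (ι → ℝ) → ℝ} {f₂ : (κ → ℝ) → ℝ} (c₁ : Continuous f₁) (c₂ : Continuous f₂) (d₁ d₂ : ℕ)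
    (hom₁ : ∀ t : ℝ, 0 < t → ∀ x, f₁ (t • x) = t ^ d₁ * f₁ x)
    (hom₂ : ∀ t : ℝ, 0 < t → ∀ x, f₂ (t • x) = t ^ d₂ * f₂ x) :
    ((Fintype.card ι + Fintype.card κ + (d₁ + d₂)).factorial : ℝ) *
        ∫ z in freeSum K₁ K₂, f₁ (fun i => z (Sum.inl i)) * f₂ (fun j => z (Sum.inr j)) =
      (((Fintype.card ι + d₁).factorial : ℝ) * ∫ x in K₁, f₁ x) *
        (((Fintype.card κ + d₂).factorial : ℝ) * ∫ y in K₂, f₂ y) := by
  rw [← integral_expWeight_mul h₁.compact c₁ d₁ hom₁,
    ← integral_expWeight_mul h₂.compact c₂ d₂ hom₂, ← integral_prod_mul, ← Fintype.card_sum,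
    ← integral_expWeight_mul (IsBody.free_sum h₁ h₂).compact (by fun_prop) (d₁ + d₂)
      (fun t ht z => ?_)]
  · rw [← (volume_measurePreserving_sumPiEquivProdPi_symm (fun _ : ι ⊕ κ => ℝ)).integral_comp
      (MeasurableEquiv.measurableEmbedding _)]
    refine integral_congr_ae (Filter.Eventually.of_forall fun p => ?_)
    obtain ⟨x, y⟩ := p
    have he : (MeasurableEquiv.sumPiEquivProdPi fun _ : ι ⊕ κ => ℝ).symm (x, y) = Sum.elim x y := by
      ext (i | i) <;> rfl
    simp only [he, Sum.elim_inl, Sum.elim_inr, expWeight_freeSum h₁ h₂]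
    ring
  · have e1 := hom₁ t ht (fun i => z (Sum.inl i))
    have e2 := hom₂ t ht (fun j => z (Sum.inr j))
    calc _ = f₁ (t • fun i => z (Sum.inl i)) * f₂ (t • fun j => z (Sum.inr j)) := rfl
      _ = _ := by rw [e1, e2, pow_add]; ring

end Vale.Agent.P254
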