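import Mathlib

/-!
The algebraic step behind the bound `ln 2` per coordinate for the isotropic constant: a quadratic
matrix inequality for nonnegative symmetric weights implies the weighted third moment inequality
for the potential `log 2 - log (1 + s)`.
-/

open Finset

namespace Vale.Agent.P254

lemma pair_ineq {a b : ℝ} (ha : 0 ≤ a) (ha1 : a ≤ 1) (hb : 0 ≤ b) (hb1 : b ≤ 1) :
    1 + 2 * a * b / ((1 + a) * (1 + b)) ≤
      (Real.sqrt (1 + a))⁻¹ * (Real.sqrt (1 + b))⁻¹ * (1 + a + b) := by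
  set g := Real.sqrt (1 + a) * Real.sqrt (1 + b) with hg
  have hg0 : 0 < g := by positivity
  have hgg : g * g = (1 + a) * (1 + b) := by
    rw [hg, mul_mul_mul_comm, Real.mul_self_sqrt (by linarith), Real.mul_self_sqrt (by linarith)]
  have hg1 : 1 ≤ g := by nlinarith [hgg, hg0, mul_nonneg ha hb]
  have hg2 : g ≤ 2 := by
    nlinarith [hgg, hg0, mul_le_mul (by linarith : (1 + a) ≤ 2) (by linarith : (1 + b) ≤ 2)
      (by linarith) (by norm_num : (0:ℝ) ≤ 2)]
  have hsum : 2 * g - 2 ≤ a + b := by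
    nlinarith [sq_nonneg (a - b), hgg, hg0]
  rw [← mul_inv, ← hg]
  rw [one_add_div (by positivity), div_le_iff₀ (by positivity)]
  have h3 : (1 + a) * (1 + b) + 2 * a * b ≤ g * (1 + a + b) := by
    have : g * g = 1 + a + b + a * b := by rw [hgg]; ring
    nlinarith [mul_nonneg (sub_nonneg.2 hg1) (sub_nonneg.2 hg2), sq_nonneg (a - b),
      mul_le_mul_of_nonneg_left hsum (by linarith : (0:ℝ) ≤ g)]
  calc (1 + a) * (1 + b) + 2 * a * b ≤ g * (1 + a + b) := h3
    _ = g⁻¹ * (1 + a + b) * (g * g) := by field_simp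
    _ = _ := by rw [hgg]

variable {ι : Type*} [Fintype ι]

/-- The curvature term kept to first order. -/
lemma linear_le_of_quadratic (s c : ι → ℝ) (M : ι → ι → ℝ) (hs : ∀ i, 0 ≤ s i)
    (hM : ∀ i j, M i j = M j i)
    (h : (∑ i, ∑ j, c i * c j * M i j) + ∑ k, s k * (c k + ∑ j, c j * M k j) ^ 2 ≤
      ∑ k, c k ^ 2) :
    ∑ i, ∑ j, c i * c j * (1 + s i + s j) * M i j ≤ ∑ k, c k ^ 2 * (1 - s k) := by
  have h1 : ∑ k, (s k * c k ^ 2 + 2 * (s k * c k * ∑ j, c j * M k j)) ≤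
      ∑ k, s k * (c k + ∑ j, c j * M k j) ^ 2 := by
    refine sum_le_sum fun k _ => ?_
    nlinarith [mul_nonneg (hs k) (sq_nonneg (∑ j, c j * M k j))]
  have h2 : ∑ i, ∑ j, c i * c j * (1 + s i + s j) * M i j =
      (∑ i, ∑ j, c i * c j * M i j) + 2 * ∑ k, s k * c k * ∑ j, c j * M k j := by
    have h3 : ∑ i, ∑ j, s j * (c i * c j * M i j) = ∑ k, s k * c k * ∑ j, c j * M k j := by
      rw [sum_comm]
      refine sum_congr rfl fun i _ => ?_
      rw [mul_sum]
      refine sum_congr rfl fun j _ => ?_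
      rw [hM j i]; ring
    have h4 : ∑ i, ∑ j, s i * (c i * c j * M i j) = ∑ k, s k * c k * ∑ j, c j * M k j := by
      refine sum_congr rfl fun i _ => ?_
      rw [mul_sum]
      exact sum_congr rfl fun j _ => by ring
    calc _ = ∑ i, ∑ j, (c i * c j * M i j + s i * (c i * c j * M i j) +
          s j * (c i * c j * M i j)) :=
          sum_congr rfl fun i _ => sum_congr rfl fun j _ => by ring
      _ = _ := by simp only [sum_add_distrib, h3, h4]; ring
  rw [sum_add_distrib, ← mul_sum] at h1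
  have h5 : ∑ k, c k ^ 2 * (1 - s k) = (∑ k, c k ^ 2) - ∑ k, s k * c k ^ 2 := by
    rw [← sum_sub_distrib]; exact sum_congr rfl fun k _ => by ring
  rw [h2, h5]
  linarith

/-- Weighted third moment bound for the potential `log 2 - log (1 + s)`. -/
lemma weighted_le_log_two_potential (s : ι → ℝ) (M : ι → ι → ℝ) (hs : ∀ i, 0 ≤ s i)
    (hs1 : ∀ i, s i ≤ 1) (hM : ∀ i j, M i j = M j i) (hM0 : ∀ i j, 0 ≤ M i j)
    (h : ∀ c : ι → ℝ, (∀ i, 0 ≤ c i) →
      (∑ i, ∑ j, c i * c j * M i j) + ∑ k, s k * (c k + ∑ j, c j * M k j) ^ 2 ≤ ∑ k, c k ^ 2) :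
    ∑ i, ∑ j, (1 + 2 * s i * s j / ((1 + s i) * (1 + s j))) * M i j ≤
      ∑ k, (1 - s k) / (1 + s k) := by
  set c : ι → ℝ := fun i => (Real.sqrt (1 + s i))⁻¹
  have h1 := linear_le_of_quadratic s c M hs hM (h c fun i => by positivity)
  calc _ ≤ ∑ i, ∑ j, c i * c j * (1 + s i + s j) * M i j :=
        sum_le_sum fun i _ => sum_le_sum fun j _ =>
          mul_le_mul_of_nonneg_right (pair_ineq (hs i) (hs1 i) (hs j) (hs1 j)) (hM0 i j)
    _ ≤ _ := h1
    _ = _ := sum_congr rfl fun k _ => by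
        simp only [c]
        rw [inv_pow, Real.sq_sqrt (by linarith [hs k]), inv_mul_eq_div]

end Vale.Agent.P254
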