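import Vale.Agent.P254.PairAlgebra

/-!
The algebraic step behind the sharper bound `1/5 + (2/5) log 3` per coordinate: the quadratic
matrix inequality gives the weighted third moment inequality for the potential
`(1 - s)/5 + (2/5) (log 3 - log (1 + 2 s))`, whose slope is `(1 + 2 s/5)/(1 + 2 s)`.
-/

open Finset

namespace Vale.Agent.P254

lemma pair_ineq_two_fifths {a b : ℝ} (ha : 0 ≤ a) (hb : 0 ≤ b) :
    1 + 16 / 5 * (a * b) / ((1 + 2 * a) * (1 + 2 * b)) ≤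
      Real.sqrt ((1 + 2 / 5 * a) / (1 + 2 * a)) * Real.sqrt ((1 + 2 / 5 * b) / (1 + 2 * b)) *
        (1 + a + b) := by
  set g := Real.sqrt (a * b) with hg
  set u := Real.sqrt ((1 + 2 * a) * (1 + 2 * b)) with hu
  set v := Real.sqrt ((1 + 2 / 5 * a) * (1 + 2 / 5 * b)) with hv
  have hg0 : 0 ≤ g := Real.sqrt_nonneg _
  have hgg : g ^ 2 = a * b := Real.sq_sqrt (mul_nonneg ha hb)
  have huu : u ^ 2 = (1 + 2 * a) * (1 + 2 * b) := Real.sq_sqrt (by positivity)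
  have hu0 : 0 < u := by rw [hu]; positivity
  have hab : 2 * g ≤ a + b := by nlinarith [sq_nonneg (a - b)]
  have hu1 : 1 + 2 * g ≤ u := by nlinarith
  have hv1 : 1 + 2 / 5 * g ≤ v := by
    refine Real.le_sqrt_of_sq_le ?_
    nlinarith
  rw [← Real.sqrt_mul (by positivity), div_mul_div_comm, Real.sqrt_div' _ (by positivity),
    ← hu, ← hv, one_add_div (by positivity), ← huu, div_mul_eq_mul_div (c := 1 + a + b),
    div_le_div_iff₀ (by positivity) hu0]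
  clear_value u g v
  obtain ⟨w, hw, rfl⟩ : ∃ w, 0 ≤ w ∧ u = 1 + 2 * g + w :=
    ⟨u - (1 + 2 * g), by linarith, by ring⟩
  have key : (1 + 2 * g + w) ^ 2 + 16 / 5 * (a * b) ≤
      (1 + 2 / 5 * g) * (1 + 2 * g + w) * (1 + a + b) := by
    have e : 1 + a + b = ((1 + 2 * g + w) ^ 2 + 1 - 4 * g ^ 2) / 2 := by rw [huu, hgg]; ring
    rw [e, ← hgg]
    nlinarith [mul_nonneg hg0 (sq_nonneg (2 * g - 1)), mul_nonneg hw hg0,
      mul_nonneg (mul_nonneg hw hg0) hg0, sq_nonneg w, mul_nonneg (mul_nonneg hw hw) hw,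
      mul_nonneg (mul_nonneg hw hw) hg0, mul_nonneg (mul_nonneg (mul_nonneg hw hw) hw) hg0,
      mul_nonneg (mul_nonneg (mul_nonneg hw hw) hg0) hg0]
  calc _ = ((1 + 2 * g + w) ^ 2 + 16 / 5 * (a * b)) * (1 + 2 * g + w) := by ring
    _
      ≤ ((1 + 2 / 5 * g) * (1 + 2 * g + w) * (1 + a + b)) * (1 + 2 * g + w) := by gcongr
    _ = (1 + 2 / 5 * g) * (1 + a + b) * (1 + 2 * g + w) ^ 2 := by ring
    _ ≤ v * (1 + a + b) * (1 + 2 * g + w) ^ 2 := by gcongr

variable {ι : Type*} [Fintype ι]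

/-- Weighted third moment bound for the potential with slope `(1 + 2 s/5)/(1 + 2 s)`. -/
lemma weighted_le_two_fifths_potential (s : ι → ℝ) (M : ι → ι → ℝ) (hs : ∀ i, 0 ≤ s i)
    (hM : ∀ i j, M i j = M j i) (hM0 : ∀ i j, 0 ≤ M i j)
    (h : ∀ c : ι → ℝ, (∀ i, 0 ≤ c i) →
      (∑ i, ∑ j, c i * c j * M i j) + ∑ k, s k * (c k + ∑ j, c j * M k j) ^ 2 ≤ ∑ k, c k ^ 2) :
    ∑ i, ∑ j, (1 + 16 / 5 * (s i * s j) / ((1 + 2 * s i) * (1 + 2 * s j))) * M i j ≤
      ∑ k, (1 + 2 / 5 * s k) / (1 + 2 * s k) * (1 - s k) := by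
  set c : ι → ℝ := fun i => Real.sqrt ((1 + 2 / 5 * s i) / (1 + 2 * s i))
  have h1 := linear_le_of_quadratic s c M hs hM (h c fun i => Real.sqrt_nonneg _)
  calc _ ≤ ∑ i, ∑ j, c i * c j * (1 + s i + s j) * M i j :=
        sum_le_sum fun i _ => sum_le_sum fun j _ =>
          mul_le_mul_of_nonneg_right (pair_ineq_two_fifths (hs i) (hs j)) (hM0 i j)
    _ ≤ _ := h1
    _ = _ := sum_congr rfl fun k _ => by
        have := hs k
        simp only [c]
        rw [Real.sq_sqrt (by positivity)]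

end Vale.Agent.P254
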