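import Vale.Agent.P254.Affine

/-!
Bodies with at most two more vertices than the dimension.
-/

open MeasureTheory Set Matrix
open scoped Pointwise

namespace Vale.Agent.P254

variable {I : Type*} [Fintype I] [DecidableEq I] {E : Type*} [AddCommGroup E] [Module ℝ E]

/-- The linear map sending the coordinate vector of `i` to `p i - p i₀`. -/
noncomputable def edgeMap (p : I → E) (i₀ : I) : ({i : I // i ≠ i₀} → ℝ) →ₗ[ℝ] E :=
  Fintype.linearCombination ℝ fun i : {i : I // i ≠ i₀} => p i - p i₀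

/-- The standard simplex translated so that the point with weights `w` is the origin. -/
def shiftedSimplex (w : I → ℝ) (i₀ : I) : Set ({i : I // i ≠ i₀} → ℝ) :=
  (fun x => (-(fun i : {i : I // i ≠ i₀} => w i)) + x) '' cornerSimplex _

lemma sum_ne_eq (f : I → ℝ) (i₀ : I) :
    ∑ i : {i : I // i ≠ i₀}, f i = (∑ i, f i) - f i₀ := by
  rw [Fintype.sum_eq_add_sum_subtype_ne f i₀]
  ring

lemma edgeMap_weights (p : I → E) (i₀ : I) (w : I → ℝ) (hw : ∑ i, w i = 1) :
    edgeMap p i₀ (fun i => w i) = (∑ i, w i • p i) - p i₀ := by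
  simp only [edgeMap, Fintype.linearCombination_apply]
  rw [Fintype.sum_eq_add_sum_subtype_ne (fun i => w i • p i) i₀]
  simp only [smul_sub, Finset.sum_sub_distrib, ← Finset.sum_smul, sum_ne_eq, hw, sub_smul,
    one_smul]
  abel

lemma weights_mem_cornerSimplex (i₀ : I) {w : I → ℝ} (h0 : ∀ i, 0 ≤ w i) (h1 : ∑ i, w i = 1) :
    (fun i : {i : I // i ≠ i₀} => w i) ∈ cornerSimplex {i : I // i ≠ i₀} := by
  refine ⟨fun i => h0 i, ?_⟩
  rw [sum_ne_eq, h1]
  linarith [h0 i₀]

lemma image_cornerSimplex (p : I → E) (i₀ : I) :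
    (fun x => p i₀ + edgeMap p i₀ x) '' cornerSimplex {i : I // i ≠ i₀} =
      convexHull ℝ (range p) := by
  refine subset_antisymm ?_ (convexHull_min ?_ ?_)
  · rintro _ ⟨x, hx, rfl⟩
    let w : I → ℝ := fun i => if h : i = i₀ then 1 - ∑ j, x j else x ⟨i, h⟩
    have hw1 : ∑ i, w i = 1 := by
      rw [Fintype.sum_eq_add_sum_subtype_ne w i₀]
      have : ∀ j : {i : I // i ≠ i₀}, w j = x j := fun j => by simp [w, j.2]
      simp [this, w]
    have hwx : (fun i : {i : I // i ≠ i₀} => w i) = x := by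
      ext j; simp [w, j.2]
    show p i₀ + edgeMap p i₀ x ∈ _
    rw [← hwx, edgeMap_weights p i₀ w hw1, add_sub_cancel]
    refine (convex_convexHull ℝ _).sum_mem (fun i _ => ?_) hw1 fun i _ =>
      subset_convexHull ℝ _ (mem_range_self i)
    by_cases h : i = i₀
    · simpa [w, h] using hx.2
    · simpa [w, h] using hx.1 ⟨i, h⟩
  · rintro _ ⟨k, rfl⟩
    have h1 : ∑ i, (Pi.single k (1 : ℝ) : I → ℝ) i = 1 := by simp [Finset.sum_pi_single']
    refine ⟨_, weights_mem_cornerSimplex i₀ (w := Pi.single k (1 : ℝ))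
      (fun i => by by_cases h : i = k <;> simp [h]) h1, ?_⟩
    simp only [edgeMap_weights p i₀ _ h1]
    simp [Pi.single_apply, ite_smul]
  · have : (fun x => p i₀ + edgeMap p i₀ x) '' cornerSimplex {i : I // i ≠ i₀} =
        (fun y => p i₀ + y) '' (edgeMap p i₀ '' cornerSimplex _) := by rw [image_image]
    rw [this]
    exact (isBody_cornerSimplex.convex.linear_image _).translate _

lemma image_shiftedSimplex (p : I → E) (i₀ : I) (w : I → ℝ) (h1 : ∑ i, w i = 1) :
    (fun x => (∑ i, w i • p i) + edgeMap p i₀ x) '' shiftedSimplex w i₀ =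
      convexHull ℝ (range p) := by
  rw [← image_cornerSimplex p i₀, shiftedSimplex, image_image]
  refine image_congr fun x _ => ?_
  rw [map_add, map_neg, edgeMap_weights p i₀ w h1]
  abel

lemma shiftedSimplex_spec (i₀ : I) {w : I → ℝ} (h0 : ∀ i, 0 ≤ w i) (h1 : ∑ i, w i = 1) :
    IsBody (shiftedSimplex w i₀) ∧ ratio (shiftedSimplex w i₀) = 1 ∧
      ((0 < w i₀ ∧ ∃ j, j ≠ i₀ ∧ 0 < w j) →
        0 ∉ extremePoints ℝ (shiftedSimplex w i₀)) := by
  set v : {i : I // i ≠ i₀} → ℝ := fun i => w i with hv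
  have hz : (0 : {i : I // i ≠ i₀} → ℝ) ∈
      (fun x => -v + LinearEquiv.refl ℝ _ x) '' cornerSimplex _ :=
    ⟨v, weights_mem_cornerSimplex i₀ h0 h1, by simp⟩
  refine ⟨isBody_cornerSimplex.affine_image (LinearEquiv.refl ℝ _) (-v) hz, ?_, ?_⟩
  · exact (ratio_affine_image isBody_cornerSimplex (LinearEquiv.refl ℝ _) (-v) hz).trans
      cornerSimplex_invariants.2.2
  · rintro ⟨hi₀, j, hj, hwj⟩ hext
    set ε := min (w i₀) (w j) with hε
    have hεpos : 0 < ε := lt_min hi₀ hwj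
    set e : {i : I // i ≠ i₀} → ℝ := Pi.single ⟨j, hj⟩ ε with he
    have hmem : ∀ s : ℝ, |s| ≤ 1 → s • e ∈ shiftedSimplex w i₀ := by
      intro s hs
      obtain ⟨hs1, hs2⟩ := abs_le.1 hs
      refine ⟨v + s • e, ⟨fun i => ?_, ?_⟩, by simp [hv]⟩
      · by_cases h : i = ⟨j, hj⟩
        · subst h
          simp [hv, e]
          have : ε ≤ w j := min_le_right _ _
          nlinarith
        · simp [hv, e, h, h0]
      · simp only [Pi.add_apply, Pi.smul_apply, Finset.sum_add_distrib, hv, sum_ne_eq, h1,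
          smul_eq_mul, ← Finset.mul_sum, e, Finset.sum_pi_single', Finset.mem_univ, if_true]
        have : ε ≤ w i₀ := min_le_left _ _
        nlinarith
    have h := hext.2 (hmem 1 (by simp)) (hmem (-1) (by simp))
      ⟨1/2, 1/2, by norm_num, by norm_num, by norm_num, by simp⟩
    have := congr_fun h ⟨j, hj⟩
    simp [e] at this
    linarith

lemma isoConst_of_isFullSimplex {n : ℕ} {K : Set (Fin n → ℝ)} (hK : IsFullSimplex K) :
    isoConst K = simplexConst n := by
  obtain ⟨p, hp, rfl⟩ := hK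
  have hc : Fintype.card {i : Fin (Fintype.card (Fin n) + 1) // i ≠ 0} = n := by
    simp
  have hinj : Function.Injective (edgeMap p 0) := by
    have := (affineIndependent_iff_linearIndependent_vsub ℝ p 0).1 hp
    exact linearIndependent_iff_injective_fintypeLinearCombination.1 this
  set L := LinearEquiv.ofBijective (edgeMap p 0)
    ⟨hinj, (LinearMap.injective_iff_surjective_of_finrank_eq_finrank
      (by simp)).1 hinj⟩
  rw [← image_cornerSimplex p 0]
  show isoConst ((fun x => p 0 + L x) '' cornerSimplex _) = _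
  rw [isoConst_affine_image isBody_cornerSimplex, isoConst_eq isBody_cornerSimplex,
    cornerSimplex_invariants.2.2, one_mul, hc, simplexConst_eq]

/-- The strong isotropic constant conjecture for bodies with at most `n + 2` vertices. -/
theorem few_vertices {n : ℕ} (hn : 0 < n) (p : Fin (n + 2) → (Fin n → ℝ))
    (hint : (interior (convexHull ℝ (range p))).Nonempty) :
    isoConst (convexHull ℝ (range p)) ≤ simplexConst n ∧
      (isoConst (convexHull ℝ (range p)) = simplexConst n ↔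
        IsFullSimplex (convexHull ℝ (range p))) := by
  suffices h : IsFullSimplex (convexHull ℝ (range p)) ∨
      isoConst (convexHull ℝ (range p)) < simplexConst n by
    rcases h with h | h
    · exact ⟨(isoConst_of_isFullSimplex h).le, fun _ => h, fun _ => isoConst_of_isFullSimplex h⟩
    · exact ⟨h.le, fun e => absurd e h.ne, fun hs => absurd (isoConst_of_isFullSimplex hs) h.ne⟩
  have hspan : affineSpan ℝ (range p) = ⊤ := interior_convexHull_nonempty_iff_affineSpan_eq_top.1 hint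
  obtain ⟨c, hcne, hcsum, hcp⟩ : ∃ c : Fin (n + 2) → ℝ, c ≠ 0 ∧ ∑ i, c i = 0 ∧
      ∑ i, c i • p i = 0 := by
    let f : (Fin (n + 2) → ℝ) →ₗ[ℝ] ℝ × (Fin n → ℝ) :=
      LinearMap.prod (Fintype.linearCombination ℝ fun _ => (1 : ℝ)) (Fintype.linearCombination ℝ p)
    have : LinearMap.ker f ≠ ⊥ := LinearMap.ker_ne_bot_of_finrank_lt (by simp; omega)
    obtain ⟨c, hc, hne⟩ := Submodule.exists_mem_ne_zero_of_ne_bot this
    simp [f, LinearMap.mem_ker, Fintype.linearCombination_apply] at hc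
    exact ⟨c, hne, hc.1, hc.2⟩
  set P := Finset.univ.filter fun i => 0 ≤ c i with hP
  set Q := Finset.univ.filter fun i => ¬ 0 ≤ c i with hQ
  obtain ⟨i₀, hi₀⟩ : ∃ i, 0 < c i := by
    by_contra! h
    exact hcne (funext fun i => (Finset.sum_eq_zero_iff_of_nonpos fun i _ => h i).1 hcsum i
      (Finset.mem_univ i))
  obtain ⟨j₀, hj₀⟩ : ∃ i, c i < 0 := by
    by_contra! h
    exact hcne (funext fun i => (Finset.sum_eq_zero_iff_of_nonneg fun i _ => h i).1 hcsum i
      (Finset.mem_univ i))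
  have single : ∀ d : Fin (n + 2) → ℝ, (∑ i, d i = 0) → (∑ i, d i • p i = 0) →
      ∀ q, d q < 0 → (∀ i, d i < 0 → i = q) → IsFullSimplex (convexHull ℝ (range p)) := by
    intro d hdsum hdp q hq huniq
    have hmem : p q ∈ convexHull ℝ (range fun k => p (q.succAbove k)) := by
      have e : p q = ∑ k, (d (q.succAbove k) / (-d q)) • p (q.succAbove k) := by
        have h := hdp
        rw [Fin.sum_univ_succAbove _ q] at h
        simp only [div_eq_inv_mul, mul_smul, ← Finset.smul_sum]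
        rw [← sub_eq_zero]
        have : ∑ k, d (q.succAbove k) • p (q.succAbove k) = (-d q) • p q := by
          rw [neg_smul]; exact eq_neg_of_add_eq_zero_right h
        rw [this, inv_smul_smul₀ (by linarith), sub_self]
      rw [e]
      refine (convex_convexHull ℝ _).sum_mem (fun k _ => div_nonneg ?_ (by linarith)) ?_
        fun k _ => subset_convexHull ℝ _ (mem_range_self k)
      · exact le_of_not_gt fun h => Fin.succAbove_ne q k (huniq _ h)
      · rw [← Finset.sum_div, div_eq_one_iff_eq (by linarith)]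
        rw [Fin.sum_univ_succAbove _ q] at hdsum
        linarith
    have heq : convexHull ℝ (range p) = convexHull ℝ (range fun k => p (q.succAbove k)) := by
      refine subset_antisymm (convexHull_min ?_ (convex_convexHull ℝ _))
        (convexHull_mono (range_comp_subset_range _ p))
      rintro _ ⟨i, rfl⟩
      rcases Fin.eq_self_or_eq_succAbove q i with h | ⟨k, h⟩
      · exact h ▸ hmem
      · exact h ▸ subset_convexHull ℝ _ (mem_range_self k)
    rw [heq]
    have hsp : affineSpan ℝ (range fun k => p (q.succAbove k)) = ⊤ := by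
      rw [← affineSpan_convexHull, ← heq, affineSpan_convexHull, hspan]
    have hv := AffineSubspace.vectorSpan_eq_top_of_affineSpan_eq_top ℝ (Fin n → ℝ) (Fin n → ℝ) hsp
    have hind : AffineIndependent ℝ fun k => p (q.succAbove k) := by
      rw [affineIndependent_iff_finrank_vectorSpan_eq ℝ _ (n := n) (by simp), hv, finrank_top]
      simp
    refine ⟨fun k => p (q.succAbove (Fin.cast (by simp) k)),
      hind.comp_embedding (finCongr (by simp)).toEmbedding, ?_⟩
    congr 1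
    exact ((finCongr (by simp)).surjective.range_comp (fun k => p (q.succAbove k))).symm
  by_cases hQ1 : ∀ i, c i < 0 → i = j₀
  · exact Or.inl (single c hcsum hcp j₀ hj₀ hQ1)
  by_cases hP1 : ∀ i, 0 < c i → i = i₀
  · refine Or.inl (single (-c) (by simpa using hcsum) (by simpa using hcp) i₀ (by simpa using hi₀)
      fun i hi => hP1 i (by simpa using hi))
  push Not at hQ1 hP1
  obtain ⟨j₁, hj₁, hj₁'⟩ := hQ1
  obtain ⟨i₁, hi₁, hi₁'⟩ := hP1
  right
  set s := ∑ i : {i // 0 ≤ c i}, c i with hs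
  have hsplit : s + ∑ i : {i // ¬ 0 ≤ c i}, c i = 0 := by
    rw [hs, Fintype.sum_subtype_add_sum_subtype (fun i => 0 ≤ c i) c, hcsum]
  have hspos : 0 < s :=
    Finset.sum_pos' (fun i _ => i.2) ⟨⟨i₀, hi₀.le⟩, Finset.mem_univ _, hi₀⟩
  let a₀ : {i // 0 ≤ c i} := ⟨i₀, hi₀.le⟩
  let b₀ : {i // ¬ 0 ≤ c i} := ⟨j₀, not_le.2 hj₀⟩
  let w₁ : {i // 0 ≤ c i} → ℝ := fun i => c i / s
  let w₂ : {i // ¬ 0 ≤ c i} → ℝ := fun i => -c i / s
  have w₁0 : ∀ i, 0 ≤ w₁ i := fun i => div_nonneg i.2 hspos.le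
  have w₂0 : ∀ i, 0 ≤ w₂ i := fun i => div_nonneg (by linarith [not_le.1 i.2]) hspos.le
  have w₁1 : ∑ i, w₁ i = 1 := by
    simp only [w₁, ← Finset.sum_div, ← hs, div_self hspos.ne']
  have w₂1 : ∑ i, w₂ i = 1 := by
    simp only [w₂, ← Finset.sum_div, Finset.sum_neg_distrib]
    rw [div_eq_one_iff_eq hspos.ne']
    linarith
  let p₁ : {i // 0 ≤ c i} → (Fin n → ℝ) := fun i => p i
  let p₂ : {i // ¬ 0 ≤ c i} → (Fin n → ℝ) := fun i => p i
  set o : Fin n → ℝ := ∑ i, w₁ i • p₁ i with ho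
  have ho' : o = ∑ i, w₂ i • p₂ i := by
    rw [ho, ← sub_eq_zero]
    simp only [w₁, w₂, p₁, p₂, div_eq_inv_mul, mul_smul, ← Finset.smul_sum, ← smul_sub,
      neg_smul, Finset.sum_neg_distrib, sub_neg_eq_add]
    rw [Fintype.sum_subtype_add_sum_subtype (fun i => 0 ≤ c i) (fun i => c i • p i), hcp,
      smul_zero]
  obtain ⟨B₁, r₁, x₁⟩ := shiftedSimplex_spec a₀ w₁0 w₁1
  obtain ⟨B₂, r₂, x₂⟩ := shiftedSimplex_spec b₀ w₂0 w₂1
  have e₁ := x₁ ⟨div_pos hi₀ hspos, ⟨i₁, hi₁.le⟩, fun h => hi₁' (congrArg Subtype.val h),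
    div_pos hi₁ hspos⟩
  have e₂ := x₂ ⟨div_pos (neg_pos.2 hj₀) hspos, ⟨j₁, not_le.2 hj₁⟩,
    fun h => hj₁' (congrArg Subtype.val h), div_pos (neg_pos.2 hj₁) hspos⟩
  set K₁ := shiftedSimplex w₁ a₀
  set K₂ := shiftedSimplex w₂ b₀
  let π₁ : ({i // i ≠ a₀} ⊕ {i // i ≠ b₀} → ℝ) →ₗ[ℝ] ({i // i ≠ a₀} → ℝ) :=
    LinearMap.funLeft ℝ ℝ Sum.inl
  let π₂ : ({i // i ≠ a₀} ⊕ {i // i ≠ b₀} → ℝ) →ₗ[ℝ] ({i // i ≠ b₀} → ℝ) :=
    LinearMap.funLeft ℝ ℝ Sum.inr
  set Φ := (edgeMap p₁ a₀).comp π₁ + (edgeMap p₂ b₀).comp π₂ with hΦ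
  have hΦe : ∀ x y, Φ (Sum.elim x y) = edgeMap p₁ a₀ x + edgeMap p₂ b₀ y := fun x y => rfl
  have hsurj : Function.Surjective Φ := by
    rw [← LinearMap.range_eq_top]
    have hpo : ∀ i, p i - o ∈ LinearMap.range Φ := by
      intro i
      by_cases h : 0 ≤ c i
      · have h1 : ∑ k, (Pi.single (⟨i, h⟩ : {i // 0 ≤ c i}) (1 : ℝ) : {i // 0 ≤ c i} → ℝ) k = 1 := by
          simp [Finset.sum_pi_single']
        refine ⟨Sum.elim ((fun k => (Pi.single (⟨i, h⟩ : {i // 0 ≤ c i}) (1 : ℝ) :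
          {i // 0 ≤ c i} → ℝ) k.1) - fun k => w₁ k.1) 0, ?_⟩
        rw [hΦe, map_zero, add_zero, map_sub, edgeMap_weights p₁ a₀ _ h1,
          edgeMap_weights p₁ a₀ _ w₁1, ← ho]
        simp [p₁, Pi.single_apply, ite_smul]
      · have h1 : ∑ k, (Pi.single (⟨i, h⟩ : {i // ¬ 0 ≤ c i}) (1 : ℝ) :
            {i // ¬ 0 ≤ c i} → ℝ) k = 1 := by
          simp [Finset.sum_pi_single']
        refine ⟨Sum.elim 0 ((fun k => (Pi.single (⟨i, h⟩ : {i // ¬ 0 ≤ c i}) (1 : ℝ) :
          {i // ¬ 0 ≤ c i} → ℝ) k.1) - fun k => w₂ k.1), ?_⟩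
        rw [hΦe, map_zero, zero_add, map_sub, edgeMap_weights p₂ b₀ _ h1,
          edgeMap_weights p₂ b₀ _ w₂1, ← ho']
        simp [p₂, Pi.single_apply, ite_smul]
    rw [eq_top_iff,
      ← AffineSubspace.vectorSpan_eq_top_of_affineSpan_eq_top ℝ (Fin n → ℝ) (Fin n → ℝ) hspan,
      vectorSpan_def, Submodule.span_le]
    rintro _ ⟨_, ⟨i, rfl⟩, _, ⟨j, rfl⟩, rfl⟩
    have := Submodule.sub_mem _ (hpo i) (hpo j)
    simpa [vsub_eq_sub] using this
  have hdim : Module.finrank ℝ ({i // i ≠ a₀} ⊕ {i // i ≠ b₀} → ℝ) =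
      Module.finrank ℝ (Fin n → ℝ) := by
    have h3 : Fintype.card {i // 0 ≤ c i} + Fintype.card {i // ¬ 0 ≤ c i} = n + 2 := by
      rw [Fintype.card_subtype_compl, Nat.add_sub_cancel' (Fintype.card_subtype_le _)]
      simp
    have h4 : 0 < Fintype.card {i // 0 ≤ c i} := Fintype.card_pos_iff.2 ⟨a₀⟩
    have h5 : 0 < Fintype.card {i // ¬ 0 ≤ c i} := Fintype.card_pos_iff.2 ⟨b₀⟩
    simp [Fintype.card_subtype_compl] at h3 h4 h5 ⊢
    omega
  set L := LinearEquiv.ofBijective Φ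
    ⟨(LinearMap.injective_iff_surjective_of_finrank_eq_finrank hdim).2 hsurj, hsurj⟩
  have himage : convexHull ℝ (range p) = (fun z => o + L z) '' freeSum K₁ K₂ := by
    have hU : range p = range p₁ ∪ range p₂ := by
      ext z
      constructor
      · rintro ⟨i, rfl⟩
        by_cases h : 0 ≤ c i
        · exact Or.inl ⟨⟨i, h⟩, rfl⟩
        · exact Or.inr ⟨⟨i, h⟩, rfl⟩
      · rintro (⟨i, rfl⟩ | ⟨i, rfl⟩) <;> exact mem_range_self _
    have haff : (fun z => o + L z) = ⇑((AffineMap.const ℝ ({i // i ≠ a₀} ⊕ {i // i ≠ b₀} → ℝ) o : _ →ᵃ[ℝ] (Fin n → ℝ)) + Φ.toAffineMap) := rfl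
    rw [haff, freeSum, AffineMap.image_convexHull, ← haff, image_union, image_image, image_image]
    have i1 : (fun x => o + L (Sum.elim x 0)) '' K₁ = convexHull ℝ (range p₁) := by
      rw [← image_shiftedSimplex p₁ a₀ w₁ w₁1, ← ho]
      refine image_congr fun x _ => ?_
      show o + Φ (Sum.elim x 0) = _
      rw [hΦe, map_zero, add_zero]
    have i2 : (fun x => o + L (Sum.elim 0 x)) '' K₂ = convexHull ℝ (range p₂) := by
      rw [← image_shiftedSimplex p₂ b₀ w₂ w₂1, ← ho']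
      refine image_congr fun x _ => ?_
      show o + Φ (Sum.elim 0 x) = _
      rw [hΦe, map_zero, zero_add]
    rw [i1, i2, convexHull_convexHull_union_left, convexHull_convexHull_union_right, hU]
  have hcard : Fintype.card ({i // i ≠ a₀} ⊕ {i // i ≠ b₀}) = n := by simpa using hdim
  rw [himage, isoConst_affine_image (B₁.free_sum B₂)]
  conv_rhs => rw [← hcard]
  rw [isoConst_lt_iff (B₁.free_sum B₂) (by rw [hcard]; exact hn)]
  exact (ratio_freeSum_le B₁ B₂ r₁.le r₂.le).2 e₁ e₂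

end Vale.Agent.P254
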