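import Vale.Agent.P254.Slack

/-!
The standard simplex: slack and ratio are one. Comparison with the simplex constant.
-/

open MeasureTheory Set Matrix
open scoped Pointwise

namespace Vale.Agent.P254

variable {ι : Type*} [Fintype ι]

lemma isBody_cornerSimplex : IsBody (cornerSimplex ι) where
  convex := by
    intro x hx y hy a b ha hb hab
    refine ⟨fun i => ?_, ?_⟩
    · simp only [Pi.add_apply, Pi.smul_apply, smul_eq_mul]
      exact add_nonneg (mul_nonneg ha (hx.1 i)) (mul_nonneg hb (hy.1 i))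
    · simp only [Pi.add_apply, Pi.smul_apply, smul_eq_mul, Finset.sum_add_distrib, ← Finset.mul_sum]
      have h1 := mul_le_mul_of_nonneg_left hx.2 ha
      have h2 := mul_le_mul_of_nonneg_left hy.2 hb
      linarith
  compact := by
    have hsub : cornerSimplex ι ⊆ Icc (0 : ι → ℝ) 1 := fun x hx =>
      ⟨fun i => hx.1 i, fun i =>
        (Finset.single_le_sum (fun j _ => hx.1 j) (Finset.mem_univ i)).trans hx.2⟩
    refine isCompact_Icc.of_isClosed_subset ?_ hsub
    simp only [cornerSimplex, setOf_and, setOf_forall]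
    exact (isClosed_iInter fun i => isClosed_le continuous_const (continuous_apply i)).inter
      (isClosed_le (continuous_finsetSum _ fun i _ => continuous_apply i) continuous_const)
  interior_nonempty := by
    let U : Set (ι → ℝ) := (⋂ i, {x : ι → ℝ | 0 < x i}) ∩ {x | ∑ i, x i < 1}
    have hU : IsOpen U :=
      (isOpen_iInter_of_finite fun i => isOpen_lt continuous_const (continuous_apply i)).inter
        (isOpen_lt (continuous_finsetSum _ fun i _ => continuous_apply i) continuous_const)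
    have hsub : U ⊆ cornerSimplex ι := fun x hx =>
      ⟨fun i => (mem_iInter.1 hx.1 i).le, hx.2.le⟩
    refine ⟨fun _ => 1 / ((Fintype.card ι : ℝ) + 1), interior_maximal hsub hU ⟨?_, ?_⟩⟩
    · exact mem_iInter.2 fun i => show (0 : ℝ) < 1 / ((Fintype.card ι : ℝ) + 1) by positivity
    · show ∑ _i : ι, 1 / ((Fintype.card ι : ℝ) + 1) < 1
      rw [Finset.sum_const, Finset.card_univ, nsmul_eq_mul, mul_one_div,
        div_lt_one (by positivity)]
      linarith
  zero_mem := ⟨fun _ => le_refl 0, by simp⟩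

lemma expWeight_cornerSimplex (y : ι → ℝ) :
    expWeight (cornerSimplex ι) y = ∏ i, (Ici (0 : ℝ)).indicator (fun t => Real.exp (-t)) (y i) := by
  have hS := isBody_cornerSimplex (ι := ι)
  have hmem : ∀ t, t ∈ dilations (cornerSimplex ι) y ↔ (∀ i, 0 ≤ y i) ∧ ∑ i, y i ≤ t := by
    intro t
    constructor
    · rintro ⟨ht, x, hx, rfl⟩
      refine ⟨fun i => mul_nonneg ht (hx.1 i), ?_⟩
      simp only [Pi.smul_apply, smul_eq_mul, ← Finset.mul_sum]
      exact mul_le_of_le_one_right ht hx.2
    · rintro ⟨hy, ht⟩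
      have ht0 : 0 ≤ t := (Finset.sum_nonneg fun i _ => hy i).trans ht
      refine ⟨ht0, ?_⟩
      rcases ht0.eq_or_lt with h | h
      · refine ⟨0, hS.zero_mem, ?_⟩
        have := (Finset.sum_eq_zero_iff_of_nonneg fun i _ => hy i).1
          (le_antisymm (h ▸ ht) (Finset.sum_nonneg fun i _ => hy i))
        ext i
        simp [this i (Finset.mem_univ i)]
      · rw [Set.mem_smul_set_iff_inv_smul_mem₀ h.ne']
        refine ⟨fun i => mul_nonneg (inv_nonneg.2 ht0) (hy i), ?_⟩
        simp only [Pi.smul_apply, smul_eq_mul, ← Finset.mul_sum]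
        rw [inv_mul_le_one₀ h]
        exact ht
  by_cases hy : ∀ i, 0 ≤ y i
  · have e : dilations (cornerSimplex ι) y = Ici (∑ i, y i) := by
      ext t; simp [hmem, hy]
    rw [expWeight_of_nonempty hS.convex hS.zero_mem (by rw [e]; exact nonempty_Ici), e, csInf_Ici,
      ← Finset.sum_neg_distrib, Real.exp_sum]
    exact Finset.prod_congr rfl fun i _ => by rw [indicator_of_mem (mem_Ici.2 (hy i))]
  · have e : dilations (cornerSimplex ι) y = ∅ := by
      ext t; simp [hmem, hy]
    push Not at hy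
    obtain ⟨i, hi⟩ := hy
    rw [expWeight_of_empty e]
    exact (Finset.prod_eq_zero (Finset.mem_univ i) (indicator_of_notMem (show y i ∉ Ici (0 : ℝ) from not_le.2 hi) _)).symm

lemma integral_Ici_exp_mul_pow (a : ℕ) :
    ∫ t : ℝ, (Ici (0 : ℝ)).indicator (fun t => Real.exp (-t)) t * t ^ a = (a.factorial : ℝ) := by
  have : (fun t : ℝ => (Ici (0 : ℝ)).indicator (fun t => Real.exp (-t)) t * t ^ a) =
      (Ici (0 : ℝ)).indicator (fun t => Real.exp (-t) * t ^ a) := by
    ext t; by_cases h : t ∈ Ici (0 : ℝ) <;> simp [indicator, h]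
  rw [this, integral_indicator measurableSet_Ici, integral_Ici_eq_integral_Ioi,
    ← Real.Gamma_nat_eq_factorial, Real.Gamma_eq_integral (by positivity)]
  refine setIntegral_congr_fun measurableSet_Ioi fun t _ => ?_
  simp only [add_sub_cancel_right, Real.rpow_natCast]

lemma monomial_cornerSimplex (a : ι → ℕ) :
    ((Fintype.card ι + ∑ i, a i).factorial : ℝ) * ∫ x in cornerSimplex ι, ∏ i, x i ^ a i =
      ∏ i, ((a i).factorial : ℝ) := by
  rw [← integral_expWeight_mul isBody_cornerSimplex.compact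
    (f := fun x => ∏ i, x i ^ a i) (by fun_prop) (∑ i, a i) (fun t _ x => by
      simp [mul_pow, Finset.prod_mul_distrib, Finset.prod_pow_eq_pow_sum])]
  simp_rw [expWeight_cornerSimplex, ← Finset.prod_mul_distrib]
  rw [integral_fintype_prod_volume_eq_prod
    (f := fun i t => (Ici (0 : ℝ)).indicator (fun t => Real.exp (-t)) t * t ^ a i)]
  exact Finset.prod_congr rfl fun i _ => integral_Ici_exp_mul_pow (a i)

variable [DecidableEq ι]

lemma cornerSimplex_invariants :
    coneCov (cornerSimplex ι) = 1 ∧ slack (cornerSimplex ι) = 1 ∧ ratio (cornerSimplex ι) = 1 := by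
  have hS := isBody_cornerSimplex (ι := ι)
  have hV := hS.volume_pos
  have h0 : ((Fintype.card ι).factorial : ℝ) * volume.real (cornerSimplex ι) = 1 := by
    simpa [setIntegral_const] using monomial_cornerSimplex (0 : ι → ℕ)
  have hne : ((Fintype.card ι).factorial : ℝ) ≠ 0 := by positivity
  have hVinv : (volume.real (cornerSimplex ι))⁻¹ = ((Fintype.card ι).factorial : ℝ) :=
    inv_eq_of_mul_eq_one_left h0
  have hu : ∀ i : ι, coneMean (cornerSimplex ι) i = 1 := by
    intro i
    have h1 := monomial_cornerSimplex (Pi.single i 1 : ι → ℕ)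
    simp [Finset.sum_pi_single', Pi.single_apply, pow_ite,
      Finset.prod_ite_eq', apply_ite Nat.factorial, Nat.factorial_succ] at h1
    simp only [coneMean, bodyCentroid, Pi.smul_apply, smul_eq_mul, hVinv]
    linear_combination h1
  have hA : coneCov (cornerSimplex ι) = 1 := by
    ext i j
    have h2 := monomial_cornerSimplex ((Pi.single i 1 : ι → ℕ) + Pi.single j 1)
    rw [coneCov_eq_raw hS.compact hV, hu, hu, hVinv]
    rcases eq_or_ne i j with rfl | hij
    · simp [Pi.single_apply, ← two_mul, pow_ite, Finset.prod_ite_eq', apply_ite Nat.factorial,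
        Nat.factorial_succ] at h2
      simp only [Matrix.one_apply_eq, ← pow_two]
      rw [show Fintype.card ι + 2 = Fintype.card ι + 1 + 1 from rfl, Nat.factorial_succ,
        Nat.factorial_succ] at h2
      push_cast at h2
      linear_combination h2
    · have hf : ∀ k, ((Pi.single i 1 : ι → ℕ) + Pi.single j 1 : ι → ℕ) k ≤ 1 := by
        intro k
        simp only [Pi.add_apply, Pi.single_apply]
        split_ifs with h h' <;> simp_all
      have hprod : ∏ k, ((((Pi.single i 1 : ι → ℕ) + Pi.single j 1 : ι → ℕ) k).factorial : ℝ) = 1 :=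
        Finset.prod_eq_one fun k _ => by
          rcases Nat.le_one_iff_eq_zero_or_eq_one.1 (hf k) with h | h <;> simp [h]
      have hx : ∀ x : ι → ℝ,
          ∏ k, x k ^ ((Pi.single i 1 : ι → ℕ) + Pi.single j 1 : ι → ℕ) k = x i * x j := by
        intro x
        simp only [Pi.add_apply, pow_add, Finset.prod_mul_distrib]
        simp [Pi.single_apply, pow_ite, Finset.prod_ite_eq']
      simp only [hprod, hx] at h2
      simp [Finset.sum_add_distrib, Finset.sum_pi_single', Nat.factorial_succ] at h2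
      rw [Matrix.one_apply_ne hij]
      linear_combination h2
  have hs : slack (cornerSimplex ι) = 1 := by
    simp [slack, hA, dotProduct, hu]
  refine ⟨hA, hs, ?_⟩
  simp [ratio, hA, hs, h0]

/-- The constant `(n!)^2 / ((n+1)^(n+1) (n+2)^n)`. -/
noncomputable def simplexDisp (n : ℕ) : ℝ :=
  (n.factorial : ℝ) ^ 2 / (((n : ℝ) + 1) ^ (n + 1) * ((n : ℝ) + 2) ^ n)

lemma simplexDisp_pos (n : ℕ) : 0 < simplexDisp n := by unfold simplexDisp; positivity

lemma IsBody.ratio_pos {K : Set (ι → ℝ)} (hK : IsBody K) : 0 < ratio K := by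
  have h := det_cov_div hK
  have h1 : 0 < (covMatrix K).det / (volume.real K) ^ 2 :=
    div_pos hK.covMatrix_posDef.det_pos (pow_pos hK.volume_pos 2)
  rw [h, mul_div_assoc] at h1
  exact pos_of_mul_pos_left h1 (simplexDisp_pos _).le

lemma isoConst_eq {K : Set (ι → ℝ)} (hK : IsBody K) :
    isoConst K = (ratio K * simplexDisp (Fintype.card ι)) ^
      ((1 : ℝ) / (2 * (Fintype.card ι : ℝ))) := by
  rw [isoConst, det_cov_div hK, simplexDisp, mul_div_assoc]

lemma simplexConst_eq (n : ℕ) :
    simplexConst n = simplexDisp n ^ ((1 : ℝ) / (2 * (n : ℝ))) := by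
  rw [simplexConst, isoConst_eq isBody_cornerSimplex, (cornerSimplex_invariants).2.2]
  simp

lemma isoConst_le_iff {K : Set (ι → ℝ)} (hK : IsBody K) (hn : 0 < Fintype.card ι) :
    isoConst K ≤ simplexConst (Fintype.card ι) ↔ ratio K ≤ 1 := by
  have hp := simplexDisp_pos (Fintype.card ι)
  rw [isoConst_eq hK, simplexConst_eq,
    Real.rpow_le_rpow_iff (mul_pos hK.ratio_pos hp).le hp.le (by positivity)]
  exact mul_le_iff_le_one_left hp

lemma isoConst_lt_iff {K : Set (ι → ℝ)} (hK : IsBody K) (hn : 0 < Fintype.card ι) :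
    isoConst K < simplexConst (Fintype.card ι) ↔ ratio K < 1 := by
  have hp := simplexDisp_pos (Fintype.card ι)
  rw [isoConst_eq hK, simplexConst_eq,
    Real.rpow_lt_rpow_iff (mul_pos hK.ratio_pos hp).le hp.le (by positivity)]
  exact mul_lt_iff_lt_one_left hp

lemma ratio_freeSum_le {κ : Type*} [Fintype κ] [DecidableEq κ] {K₁ : Set (ι → ℝ)}
    {K₂ : Set (κ → ℝ)} (h₁ : IsBody K₁) (h₂ : IsBody K₂) (r₁ : ratio K₁ ≤ 1)
    (r₂ : ratio K₂ ≤ 1) :
    ratio (freeSum K₁ K₂) ≤ 1 ∧
      ((0 : ι → ℝ) ∉ extremePoints ℝ K₁ → (0 : κ → ℝ) ∉ extremePoints ℝ K₂ →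
        ratio (freeSum K₁ K₂) < 1) := by
  have s₁ := one_le_slack h₁
  have s₂ := one_le_slack h₂
  rw [ratio_freeSum h₁ h₂ (slack_eq h₁).1 (slack_eq h₂).1 (by positivity) (by positivity)]
  set q := (slack K₁ + slack K₂ - 1) / (slack K₁ * slack K₂)
  have hq : q ≤ 1 := by
    rw [div_le_one (by positivity)]; nlinarith
  have hq0 : 0 ≤ q := div_nonneg (by linarith) (by positivity)
  have hr : ratio K₁ * ratio K₂ ≤ 1 := mul_le_one₀ r₁ h₂.ratio_pos.le r₂
  have hrp : 0 < ratio K₁ * ratio K₂ := mul_pos h₁.ratio_pos h₂.ratio_pos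
  refine ⟨mul_le_one₀ hr hq0 hq, fun e₁ e₂ => ?_⟩
  have t₁ := one_lt_slack h₁ e₁
  have t₂ := one_lt_slack h₂ e₂
  have hq' : q < 1 := by
    rw [div_lt_one (by positivity)]; nlinarith
  calc ratio K₁ * ratio K₂ * q < ratio K₁ * ratio K₂ * 1 := mul_lt_mul_of_pos_left hq' hrp
    _ ≤ 1 := by rwa [mul_one]

end Vale.Agent.P254
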