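import Vale.Agent.P254.Cov

/-!
The slack is at least one: every point of a convex body has squared covariance distance at most
`n (n + 2)` from the centroid.
-/

open MeasureTheory Set Matrix Filter Topology
open scoped Pointwise

namespace Vale.Agent.P254

variable {ι : Type*} [Fintype ι] {K : Set (ι → ℝ)}

lemma setIntegral_homothety (f : (ι → ℝ) → ℝ) (K : Set (ι → ℝ)) {p : ℝ} (hp : 0 < p)
    (c : ι → ℝ) :
    ∫ y in (fun x => c + p • x) '' K, f y = p ^ Fintype.card ι * ∫ x in K, f (c + p • x) := by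
  have e : (fun x => c + p • x) '' K = (fun y => c + y) '' (p • K) := by
    rw [← image_smul, image_image]
  rw [e, (measurePreserving_add_left volume c).setIntegral_image_emb
    (measurableEmbedding_addLeft c)]
  have h := Measure.setIntegral_comp_smul_of_pos volume (fun y => f (c + y)) K hp
  simp only [Module.finrank_pi, smul_eq_mul] at h
  rw [h]
  field_simp

lemma integral_dotProduct_centred (hK : IsBody K) (l : ι → ℝ) :
    ∫ x in K, l ⬝ᵥ (x - bodyCentroid K) = 0 := by
  have hV := hK.volume_pos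
  simp only [dotProduct, Pi.sub_apply]
  have hint : ∀ i ∈ (Finset.univ : Finset ι),
      Integrable (fun x : ι → ℝ => l i * (x i - bodyCentroid K i)) (volume.restrict K) :=
    fun i _ => integrableOn_of_continuous hK.compact (by fun_prop)
  rw [integral_finsetSum _ hint]
  refine Finset.sum_eq_zero fun i _ => ?_
  rw [integral_const_mul, integral_sub (integrableOn_of_continuous hK.compact (continuous_apply i))
    (integrableOn_of_continuous hK.compact continuous_const), setIntegral_const, smul_eq_mul,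
    bodyCentroid]
  field_simp
  ring

lemma quadForm_eq (hK : IsBody K) (l : ι → ℝ) :
    volume.real K * (l ⬝ᵥ covMatrix K *ᵥ l) =
      ∫ x in K, (l ⬝ᵥ (x - bodyCentroid K)) ^ 2 := by
  have hV := hK.volume_pos
  set b := bodyCentroid K with hb
  have h : ∀ x : ι → ℝ, (l ⬝ᵥ (x - b)) ^ 2 =
      ∑ i, ∑ j, l i * l j * ((x i - b i) * (x j - b j)) := by
    intro x
    rw [pow_two, dotProduct, Finset.sum_mul_sum]
    refine Finset.sum_congr rfl fun i _ => Finset.sum_congr rfl fun j _ => ?_
    simp [Pi.sub_apply]; ring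
  simp_rw [h]
  have h1 : ∀ i ∈ (Finset.univ : Finset ι), Integrable
      (fun x : ι → ℝ => ∑ j, l i * l j * ((x i - b i) * (x j - b j))) (volume.restrict K) :=
    fun i _ => integrableOn_of_continuous hK.compact (by fun_prop)
  rw [integral_finsetSum _ h1, dotProduct, Finset.mul_sum]
  refine Finset.sum_congr rfl fun i _ => ?_
  have h2 : ∀ j ∈ (Finset.univ : Finset ι), Integrable
      (fun x : ι → ℝ => l i * l j * ((x i - b i) * (x j - b j))) (volume.restrict K) :=
    fun j _ => integrableOn_of_continuous hK.compact (by fun_prop)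
  rw [integral_finsetSum _ h2, mulVec, dotProduct, Finset.mul_sum, Finset.mul_sum]
  refine Finset.sum_congr rfl fun j _ => ?_
  rw [integral_const_mul]
  simp only [covMatrix, ← hb]
  field_simp

lemma IsBody.quadForm_pos (hK : IsBody K) {l : ι → ℝ} (hl : l ≠ 0) :
    0 < l ⬝ᵥ covMatrix K *ᵥ l := by
  have hV := hK.volume_pos
  suffices 0 < ∫ x in K, (l ⬝ᵥ (x - bodyCentroid K)) ^ 2 by
    rw [← quadForm_eq hK l] at this
    exact pos_of_mul_pos_right this hV.le
  set g : (ι → ℝ) → ℝ := fun x => (l ⬝ᵥ (x - bodyCentroid K)) ^ 2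
  have hg : Continuous g := by simp only [g, dotProduct]; fun_prop
  rw [setIntegral_pos_iff_support_of_nonneg_ae
    (Filter.Eventually.of_forall fun x => sq_nonneg _) (integrableOn_of_continuous hK.compact hg)]
  have hne : ∃ x ∈ interior K, g x ≠ 0 := by
    by_contra! hcon
    obtain ⟨x, hx⟩ := hK.interior_nonempty
    have hmem : ∀ᶠ t : ℝ in 𝓝 0, x + t • l ∈ interior K := by
      have : Tendsto (fun t : ℝ => x + t • l) (𝓝 0) (𝓝 x) := by
        have : Continuous fun t : ℝ => x + t • l := by fun_prop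
        simpa using this.tendsto 0
      exact this.eventually (isOpen_interior.mem_nhds hx)
    obtain ⟨t, ht, hne⟩ := ((hmem.filter_mono nhdsWithin_le_nhds).and
      (self_mem_nhdsWithin : ∀ᶠ t : ℝ in 𝓝[≠] 0, t ∈ ({0}ᶜ : Set ℝ))).exists
    have e0 := hcon x hx
    have e1 := hcon _ ht
    simp only [g, sq_eq_zero_iff] at e0 e1
    rw [add_sub_right_comm, dotProduct_add, e0, zero_add, dotProduct_smul, smul_eq_mul] at e1
    rcases mul_eq_zero.1 e1 with h | h
    · exact hne h
    · exact hl (dotProduct_self_eq_zero.1 h)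
  obtain ⟨x, hx, hgx⟩ := hne
  refine lt_of_lt_of_le (IsOpen.measure_pos volume ((hg.isOpen_preimage _ isOpen_compl_singleton).inter
    isOpen_interior) ⟨x, hgx, hx⟩) (measure_mono ?_)
  exact inter_subset_inter (fun y hy => hy) interior_subset

lemma covMatrix_symm (K : Set (ι → ℝ)) (i j : ι) : covMatrix K i j = covMatrix K j i := by
  simp only [covMatrix]
  simp_rw [mul_comm (_ - bodyCentroid K i)]

lemma IsBody.covMatrix_posDef [DecidableEq ι] (hK : IsBody K) : (covMatrix K).PosDef :=
  Matrix.PosDef.of_dotProduct_mulVec_pos (Matrix.ext fun i j => by simp [covMatrix_symm K j i])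
    fun l hl => by simpa using hK.quadForm_pos hl

/-- Every point of a convex body is at squared distance at most `n (n + 2)` from the centroid, in
every direction, relative to the variance in that direction. -/
lemma sq_le_quadForm (hK : IsBody K) {z : ι → ℝ} (hz : z ∈ K) (l : ι → ℝ) :
    (l ⬝ᵥ (z - bodyCentroid K)) ^ 2 ≤
      (Fintype.card ι : ℝ) * ((Fintype.card ι : ℝ) + 2) * (l ⬝ᵥ covMatrix K *ᵥ l) := by
  set m := Fintype.card ι
  have hV := hK.volume_pos
  set a := l ⬝ᵥ (z - bodyCentroid K) with ha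
  set v := l ⬝ᵥ covMatrix K *ᵥ l with hv
  set g : (ι → ℝ) → ℝ := fun x => l ⬝ᵥ (x - bodyCentroid K) with hg
  have hgc : Continuous g := by simp only [g, dotProduct]; fun_prop
  have key : ∀ p : ℝ, 0 < p → p < 1 → ∀ c : ℝ,
      p ^ m * (p ^ 2 * v + ((1 - p) * a - c) ^ 2) ≤ v + c ^ 2 := by
    intro p hp hp1 c
    have hsub : (fun x => (1 - p) • z + p • x) '' K ⊆ K := by
      rintro _ ⟨x, hx, rfl⟩
      exact hK.convex hz hx (by linarith) hp.le (by ring)
    have hmono : ∫ x in (fun x => (1 - p) • z + p • x) '' K, (g x - c) ^ 2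
        ≤ ∫ x in K, (g x - c) ^ 2 :=
      setIntegral_mono_set (integrableOn_of_continuous hK.compact (by fun_prop))
        (Filter.Eventually.of_forall fun x => sq_nonneg _) hsub.eventuallyLE
    rw [setIntegral_homothety _ K hp] at hmono
    have haff : ∀ x, g ((1 - p) • z + p • x) = (1 - p) * a + p * g x := by
      intro x
      simp only [g, ha]
      simp only [dotProduct_sub, dotProduct_add, dotProduct_smul, smul_eq_mul]
      ring
    have hsq : ∀ α β : ℝ, ∫ x in K, (α * g x + β) ^ 2 =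
        volume.real K * (α ^ 2 * v + β ^ 2) := by
      intro α β
      have e : ∀ x, (α * g x + β) ^ 2 = α ^ 2 * g x ^ 2 + 2 * α * β * g x + β ^ 2 := fun x => by
        ring
      have i1 : IntegrableOn (fun x => α ^ 2 * g x ^ 2) K :=
        integrableOn_of_continuous hK.compact (by fun_prop)
      have i2 : IntegrableOn (fun x => 2 * α * β * g x) K :=
        integrableOn_of_continuous hK.compact (by fun_prop)
      have i3 : IntegrableOn (fun _ : ι → ℝ => β ^ 2) K :=
        integrableOn_of_continuous hK.compact continuous_const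
      have i4 : IntegrableOn (fun x => α ^ 2 * g x ^ 2 + 2 * α * β * g x) K := i1.add i2
      simp_rw [e]
      rw [integral_add i4 i3, integral_add i1 i2, integral_const_mul, integral_const_mul,
        setIntegral_const, smul_eq_mul]
      simp only [g]
      rw [← quadForm_eq hK l, integral_dotProduct_centred hK l, ← hv]
      ring
    have e1 : ∀ x, (g ((1 - p) • z + p • x) - c) ^ 2 = (p * g x + ((1 - p) * a - c)) ^ 2 := by
      intro x; rw [haff]; ring
    have e2 : ∀ x, (g x - c) ^ 2 = (1 * g x + -c) ^ 2 := fun x => by ring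
    simp_rw [e1, e2] at hmono
    rw [hsq, hsq] at hmono
    refine le_of_mul_le_mul_left ?_ hV
    calc _ = p ^ m * (volume.real K * (p ^ 2 * v + ((1 - p) * a - c) ^ 2)) := by ring
      _ ≤ _ := hmono
      _ = _ := by ring
  have hG : ∀ p ∈ Ioo (0 : ℝ) 1,
      p ^ m * a ^ 2 ≤ (∑ k ∈ Finset.range m, p ^ k) * (∑ k ∈ Finset.range (m + 2), p ^ k) * v := by
    rintro p ⟨hp, hp1⟩
    rcases Nat.eq_zero_or_pos m with hm | hm
    · have : IsEmpty ι := Fintype.card_eq_zero_iff.1 hm
      have : a = 0 := by simp [ha, dotProduct]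
      simp [this, hm]
    have hpm : 0 < 1 - p ^ m := by linarith [pow_lt_one₀ hp.le hp1 hm.ne']
    have h := key p hp hp1 (-(p ^ m * (1 - p) * a) / (1 - p ^ m))
    have g1 : (∑ k ∈ Finset.range m, p ^ k) * (1 - p) = 1 - p ^ m := geom_sum_mul_neg p m
    have g2 : (∑ k ∈ Finset.range (m + 2), p ^ k) * (1 - p) = 1 - p ^ (m + 2) :=
      geom_sum_mul_neg p (m + 2)
    have hpp : 0 < (1 - p) ^ 2 := by have : (0 : ℝ) < 1 - p := by linarith
                                     positivity
    refine le_of_mul_le_mul_right ?_ hpp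
    have e : ((1 - p) * a - -(p ^ m * (1 - p) * a) / (1 - p ^ m)) =
        (1 - p) * a / (1 - p ^ m) := by
      field_simp; ring
    rw [e] at h
    have h' := mul_le_mul_of_nonneg_right h (sq_nonneg (1 - p ^ m))
    have e3 : p ^ m * (p ^ 2 * v + ((1 - p) * a / (1 - p ^ m)) ^ 2) * (1 - p ^ m) ^ 2 =
        p ^ (m + 2) * v * (1 - p ^ m) ^ 2 + p ^ m * ((1 - p) * a) ^ 2 := by
      field_simp; ring
    have e4 : (v + (-(p ^ m * (1 - p) * a) / (1 - p ^ m)) ^ 2) * (1 - p ^ m) ^ 2 =
        v * (1 - p ^ m) ^ 2 + (p ^ m * (1 - p) * a) ^ 2 := by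
      field_simp
    rw [e3, e4] at h'
    have h'' : p ^ m * a ^ 2 * (1 - p) ^ 2 * (1 - p ^ m) ≤
        (1 - p ^ (m + 2)) * (1 - p ^ m) ^ 2 * v := by nlinarith [h']
    calc p ^ m * a ^ 2 * (1 - p) ^ 2 ≤ (1 - p ^ (m + 2)) * (1 - p ^ m) * v :=
          le_of_mul_le_mul_right (by nlinarith [h'']) hpm
      _ = _ := by rw [← g1, ← g2]; ring
  have hlim : (1 : ℝ) ^ m * a ^ 2 ≤
      (∑ k ∈ Finset.range m, (1 : ℝ) ^ k) * (∑ k ∈ Finset.range (m + 2), (1 : ℝ) ^ k) * v := by
    have c1 : Continuous fun p : ℝ => p ^ m * a ^ 2 := by fun_prop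
    have c2 : Continuous fun p : ℝ =>
        (∑ k ∈ Finset.range m, p ^ k) * (∑ k ∈ Finset.range (m + 2), p ^ k) * v := by fun_prop
    have : (1 : ℝ) ∈ closure (Ioo (0 : ℝ) 1) := by rw [closure_Ioo zero_ne_one]; simp
    exact le_on_closure hG c1.continuousOn c2.continuousOn this
  simpa using hlim

variable [DecidableEq ι]

/-- The squared covariance distance of a point from the centroid. -/
noncomputable def mahal (K : Set (ι → ℝ)) (z : ι → ℝ) : ℝ :=
  (z - bodyCentroid K) ⬝ᵥ ((covMatrix K)⁻¹ *ᵥ (z - bodyCentroid K))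

lemma mahal_le (hK : IsBody K) {z : ι → ℝ} (hz : z ∈ K) :
    mahal K z ≤ (Fintype.card ι : ℝ) * ((Fintype.card ι : ℝ) + 2) := by
  have hP := hK.covMatrix_posDef
  have hu : IsUnit (covMatrix K).det := isUnit_iff_ne_zero.2 hP.det_pos.ne'
  have h := sq_le_quadForm hK hz ((covMatrix K)⁻¹ *ᵥ (z - bodyCentroid K))
  rw [mulVec_mulVec, mul_nonsing_inv _ hu, one_mulVec, dotProduct_comm] at h
  rcases le_or_gt (mahal K z) 0 with h0 | h0
  · exact h0.trans (by positivity)
  · rw [← mahal, pow_two] at h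
    exact le_of_mul_le_mul_right h h0

lemma mahal_pos (hK : IsBody K) {w : ι → ℝ} (hw : w ≠ 0) :
    0 < w ⬝ᵥ ((covMatrix K)⁻¹ *ᵥ w) := by
  simpa using hK.covMatrix_posDef.inv.dotProduct_mulVec_pos hw

lemma mahal_zero_lt (hK : IsBody K) (h0 : (0 : ι → ℝ) ∉ extremePoints ℝ K) :
    mahal K 0 < (Fintype.card ι : ℝ) * ((Fintype.card ι : ℝ) + 2) := by
  obtain ⟨x, hx, y, hy, hxy, hne⟩ : ∃ x ∈ K, ∃ y ∈ K, (0 : ι → ℝ) ∈ openSegment ℝ x y ∧ x ≠ 0 := by
    by_contra! hcon
    exact h0 ⟨hK.zero_mem, fun x hx y hy hxy => hcon x hx y hy hxy⟩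
  obtain ⟨a, b, ha, hb, hab, e⟩ := hxy
  have hw : a • x ∈ K := hK.convex.smul_mem_of_zero_mem hK.zero_mem hx ⟨ha.le, by linarith⟩
  have hw' : -(a • x) ∈ K := by
    have : -(a • x) = b • y := neg_eq_of_add_eq_zero_right e
    rw [this]
    exact hK.convex.smul_mem_of_zero_mem hK.zero_mem hy ⟨hb.le, by linarith⟩
  have hpos := mahal_pos hK (smul_ne_zero ha.ne' hne)
  have h1 := mahal_le hK hw
  have h2 := mahal_le hK hw'
  simp only [mahal, mulVec_sub, mulVec_neg, mulVec_zero, dotProduct_sub, sub_dotProduct,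
    dotProduct_neg, neg_dotProduct, zero_dotProduct, dotProduct_zero] at h1 h2 ⊢
  linarith

lemma slack_eq (hK : IsBody K) :
    IsUnit (coneCov K).det ∧ slack K = ((Fintype.card ι : ℝ) + 1) *
      ((Fintype.card ι : ℝ) + 2) / ((Fintype.card ι : ℝ) + 2 + mahal K 0) := by
  set m : ℝ := (Fintype.card ι : ℝ) with hm
  have hm0 : 0 ≤ m := by positivity
  set b := bodyCentroid K with hb
  have hP := hK.covMatrix_posDef
  have hu : IsUnit (covMatrix K).det := isUnit_iff_ne_zero.2 hP.det_pos.ne'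
  have hvv : (vecMulVec b b).PosSemidef := by simpa using posSemidef_vecMulVec_self_star b
  have hA : (coneCov K).PosDef :=
    (hP.smul (by positivity)).add_posSemidef (hvv.smul (by positivity))
  have hAu : IsUnit (coneCov K).det := isUnit_iff_ne_zero.2 hA.det_pos.ne'
  refine ⟨hAu, ?_⟩
  set δ := b ⬝ᵥ ((covMatrix K)⁻¹ *ᵥ b) with hδ
  have hmah : mahal K 0 = δ := by simp [mahal, hb, hδ, mulVec_neg]
  have hden : 0 < m + 2 + δ := by
    have : 0 ≤ δ := by simpa using hP.inv.posSemidef.dotProduct_mulVec_nonneg b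
    linarith
  have hsol : (coneCov K)⁻¹ *ᵥ coneMean K = (m + 2 + δ)⁻¹ • ((covMatrix K)⁻¹ *ᵥ b) := by
    have e : coneCov K *ᵥ ((covMatrix K)⁻¹ *ᵥ b) = (m + 2 + δ) • coneMean K := by
      rw [coneCov, coneMean, ← hb, ← hm, add_mulVec, smul_mulVec, smul_mulVec, mulVec_mulVec,
        mul_nonsing_inv _ hu, one_mulVec, vecMulVec_mulVec, ← hδ]
      ext i
      simp
      ring
    have := congrArg ((coneCov K)⁻¹ *ᵥ ·) e
    rw [mulVec_mulVec, nonsing_inv_mul _ hAu, one_mulVec, mulVec_smul] at this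
    rw [this, smul_smul, inv_mul_cancel₀ hden.ne', one_smul]
  rw [slack, hsol, hmah, coneMean, smul_dotProduct, dotProduct_smul, ← hb, ← hδ, ← hm]
  simp only [smul_eq_mul]
  field_simp
  ring

lemma one_le_slack (hK : IsBody K) : 1 ≤ slack K := by
  rw [(slack_eq hK).2]
  have h := mahal_le hK hK.zero_mem
  have : 0 ≤ mahal K 0 := by
    simpa [mahal] using hK.covMatrix_posDef.inv.posSemidef.dotProduct_mulVec_nonneg
      (0 - bodyCentroid K)
  rw [le_div_iff₀ (by positivity)]
  nlinarith

lemma one_lt_slack (hK : IsBody K) (h0 : (0 : ι → ℝ) ∉ extremePoints ℝ K) : 1 < slack K := by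
  rw [(slack_eq hK).2]
  have h := mahal_zero_lt hK h0
  have : 0 ≤ mahal K 0 := by
    simpa [mahal] using hK.covMatrix_posDef.inv.posSemidef.dotProduct_mulVec_nonneg
      (0 - bodyCentroid K)
  rw [lt_div_iff₀ (by positivity)]
  nlinarith

/-- `det Σ / |K|^2` in terms of the ratio. -/
lemma det_cov_div (hK : IsBody K) :
    (covMatrix K).det / (volume.real K) ^ 2 = ratio K * ((Fintype.card ι).factorial : ℝ) ^ 2 /
      (((Fintype.card ι : ℝ) + 1) ^ (Fintype.card ι + 1) *
        ((Fintype.card ι : ℝ) + 2) ^ Fintype.card ι) := by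
  set m := Fintype.card ι
  have hV := hK.volume_pos
  have hA := (slack_eq hK).1
  have e : (((m : ℝ) + 1) * ((m : ℝ) + 2)) • covMatrix K = coneCov K +
      replicateCol Unit (-((m : ℝ) + 1)⁻¹ • coneMean K) * replicateRow Unit (coneMean K) := by
    ext i j
    simp [coneCov, coneMean, vecMulVec_apply, Matrix.mul_apply, m]
    field_simp
    ring
  have h := congrArg Matrix.det e
  rw [det_smul, det_add_replicateCol_mul_replicateRow hA] at h
  have e2 : (1 + replicateRow Unit (coneMean K) * (coneCov K)⁻¹ *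
      replicateCol Unit (-((m : ℝ) + 1)⁻¹ • coneMean K)).det = slack K / ((m : ℝ) + 1) := by
    rw [det_unique, Matrix.add_apply, Matrix.one_apply_eq, Matrix.mul_assoc,
      ← replicateCol_mulVec, replicateRow_mul_replicateCol_apply, mulVec_smul, dotProduct_smul,
      slack, smul_eq_mul]
    field_simp
    ring
  rw [e2] at h
  rw [ratio]
  field_simp at h ⊢
  rw [pow_succ]
  rw [mul_pow] at h
  linear_combination ((Fintype.card ι).factorial : ℝ) ^ 2 * h

end Vale.Agent.P254
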