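import Vale.Agent.P254.Affine

/-!
Pyramids, iterated joins, and the amplification of the isotropic constant.
-/

open MeasureTheory Set Matrix Filter Topology
open scoped Pointwise

namespace Vale.Agent.P254

variable {ι : Type*} [Fintype ι] {K : Set (ι → ℝ)}

lemma translate_centroid (hK : IsBody K) (v : ι → ℝ) :
    bodyCentroid ((fun x => v + x) '' K) = v + bodyCentroid K := by
  have hm := measurePreserving_add_left (volume : Measure (ι → ℝ)) v
  have he := measurableEmbedding_addLeft v
  have hvol : volume.real ((fun x => v + x) '' K) = volume.real K := by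
    have := hm.setIntegral_image_emb he (fun _ => (1 : ℝ)) K
    simpa [setIntegral_const] using this
  ext i
  have hV := hK.volume_pos
  simp only [bodyCentroid, hvol, hm.setIntegral_image_emb he, Pi.add_apply]
  rw [integral_add (integrableOn_of_continuous hK.compact continuous_const)
    (integrableOn_of_continuous hK.compact (continuous_apply i)), setIntegral_const, smul_eq_mul]
  field_simp

lemma translate_covMatrix (hK : IsBody K) (v : ι → ℝ) :
    covMatrix ((fun x => v + x) '' K) = covMatrix K := by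
  have hm := measurePreserving_add_left (volume : Measure (ι → ℝ)) v
  have he := measurableEmbedding_addLeft v
  have hvol : volume.real ((fun x => v + x) '' K) = volume.real K := by
    have := hm.setIntegral_image_emb he (fun _ => (1 : ℝ)) K
    simpa [setIntegral_const] using this
  ext i j
  simp only [covMatrix, translate_centroid hK v, hvol, hm.setIntegral_image_emb he, Pi.add_apply,
    add_sub_add_left_eq_sub]

variable [DecidableEq ι]

lemma sq_div_le_mahal (hK : IsBody K) (z l : ι → ℝ) (hl : l ≠ 0) :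
    (l ⬝ᵥ (z - bodyCentroid K)) ^ 2 / (l ⬝ᵥ covMatrix K *ᵥ l) ≤ mahal K z := by
  set d := z - bodyCentroid K with hd
  set S := covMatrix K with hS
  have hP := hK.covMatrix_posDef
  have hu : IsUnit S.det := isUnit_iff_ne_zero.2 hP.det_pos.ne'
  have hv : 0 < l ⬝ᵥ S *ᵥ l := hK.quadForm_pos hl
  set v := l ⬝ᵥ S *ᵥ l
  set c := (l ⬝ᵥ d) / v with hc
  have h := hP.inv.posSemidef.dotProduct_mulVec_nonneg (d - c • (S *ᵥ l))
  have hsymm : ∀ a b : ι → ℝ, a ⬝ᵥ S⁻¹ *ᵥ b = b ⬝ᵥ S⁻¹ *ᵥ a := by
    intro a b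
    have ht : (S⁻¹)ᵀ = S⁻¹ := by simpa using hP.inv.isHermitian.eq
    rw [dotProduct_mulVec, ← mulVec_transpose, ht, dotProduct_comm]
  have hcancel : S⁻¹ *ᵥ (S *ᵥ l) = l := by rw [mulVec_mulVec, nonsing_inv_mul _ hu, one_mulVec]
  simp only [star_trivial, mulVec_sub, mulVec_smul, hcancel, dotProduct_sub, sub_dotProduct,
    dotProduct_smul, smul_dotProduct, smul_eq_mul] at h
  rw [hsymm (S *ᵥ l) d, hcancel, dotProduct_comm d l, dotProduct_comm (S *ᵥ l) l] at h
  have e : c * v = l ⬝ᵥ d := by rw [hc]; field_simp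
  have : (l ⬝ᵥ d) ^ 2 / v = c * (l ⬝ᵥ d) := by rw [hc]; ring
  rw [this]
  show c * (l ⬝ᵥ d) ≤ d ⬝ᵥ S⁻¹ *ᵥ d
  have e2 : c * (c * v) = c * (l ⬝ᵥ d) := by rw [e]
  linarith

/-- A pyramid over a body with the apex at the origin has the same ratio and slack one. -/
lemma exists_pyramid (hK : IsBody K) :
    ∃ Q : Set (ι ⊕ Fin 1 → ℝ), IsBody Q ∧ slack Q = 1 ∧ ratio Q = ratio K := by
  set I : Set (Fin 1 → ℝ) := cornerSimplex (Fin 1)
  have hI : IsBody I := isBody_cornerSimplex
  obtain ⟨hA, hs, hr⟩ := cornerSimplex_invariants (ι := Fin 1)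
  set P := freeSum K I
  have hP : IsBody P := hK.free_sum hI
  set a : ι ⊕ Fin 1 → ℝ := Sum.elim 0 1 with ha
  have haP : a ∈ P := by
    rw [mem_freeSum hK.convex hI.convex ⟨0, hK.zero_mem⟩ ⟨0, hI.zero_mem⟩]
    refine ⟨0, 1, le_rfl, zero_le_one, zero_add 1, 0, hK.zero_mem, 1, ⟨fun _ => zero_le_one, ?_⟩, ?_⟩
    · simp
    · ext (i | i) <;> simp [ha]
  have h0 : (0 : ι ⊕ Fin 1 → ℝ) ∈
      (fun x => -a + LinearEquiv.refl ℝ _ x) '' P := ⟨a, haP, by simp⟩
  set Q := (fun x => -a + LinearEquiv.refl ℝ _ x) '' P with hQ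
  have hQB : IsBody Q := hP.affine_image _ _ h0
  have hQ' : Q = (fun x => -a + x) '' P := rfl
  refine ⟨Q, hQB, ?_, ?_⟩
  · have hle := mahal_le hQB hQB.zero_mem
    have hmah : mahal Q 0 = mahal P a := by
      simp only [mahal, hQ', translate_centroid hP, translate_covMatrix hP]
      congr 1 <;> simp [sub_eq_add_neg, add_comm]
    set N : ℝ := (Fintype.card (ι ⊕ Fin 1) : ℝ) with hN
    have hN1 : (1 : ℝ) ≤ N := by
      rw [hN]; exact_mod_cast (by simp : 1 ≤ Fintype.card (ι ⊕ Fin 1))
    set r : ι ⊕ Fin 1 := Sum.inr 0 with hr0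
    have hone : coneMean I 0 = 1 := by
      have h1 := monomial_cornerSimplex (Pi.single (0 : Fin 1) 1 : Fin 1 → ℕ)
      have h2 := monomial_cornerSimplex (0 : Fin 1 → ℕ)
      have hV := hI.volume_pos
      simp [setIntegral_const] at h1 h2
      simp only [coneMean, bodyCentroid, Pi.smul_apply, smul_eq_mul, Fintype.card_fin, Nat.cast_one]
      rw [h2]
      norm_num
      linarith [h1]
    have hb : (N + 1) * bodyCentroid P r = 1 := by
      have := coneMean_freeSum_inr hK hI 0
      rw [hone] at this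
      simpa [coneMean, hN, hr0] using this
    have hc : (N + 1) * (N + 2) * covMatrix P r r + (N + 1) * bodyCentroid P r ^ 2 = 1 := by
      have := coneCov_freeSum_inr_inr hK hI 0 0
      rw [hA, Matrix.one_apply_eq] at this
      simp only [coneCov, Matrix.add_apply, Matrix.smul_apply, vecMulVec_apply, smul_eq_mul] at this
      simp only [pow_two, hN, hr0]
      exact this
    have hge := sq_div_le_mahal hP a (Pi.single r 1) (by simp)
    simp only [single_one_dotProduct, mulVec_single_one, Pi.sub_apply] at hge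
    have har : a r = 1 := by simp [ha, hr0]
    have hcol : (covMatrix P).col r r = covMatrix P r r := rfl
    rw [har, hcol] at hge
    have hbv : bodyCentroid P r = 1 / (N + 1) := by
      field_simp; linarith
    have hcv : covMatrix P r r = N / ((N + 1) ^ 2 * (N + 2)) := by
      rw [hbv] at hc; field_simp at hc ⊢; linarith
    rw [hbv, hcv] at hge
    have : (1 - 1 / (N + 1)) ^ 2 / (N / ((N + 1) ^ 2 * (N + 2))) = N * (N + 2) := by
      field_simp; ring
    rw [this, ← hmah] at hge
    have hm : mahal Q 0 = N * (N + 2) := le_antisymm hle hge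
    rw [(slack_eq hQB).2, hm, ← hN, div_eq_one_iff_eq (by positivity)]
    ring
  · have s₁ := one_le_slack hK
    rw [hQ, ratio_affine_image hP _ _ h0,
      ratio_freeSum hK hI (slack_eq hK).1 (slack_eq hI).1 (by positivity) (by rw [hs]; norm_num),
      hr, hs]
    field_simp
    ring

/-- Reindexing the coordinates preserves the ratio and the slack. -/
lemma exists_reindex {κ : Type*} [Fintype κ] [DecidableEq κ] (hK : IsBody K) (e : ι ≃ κ) :
    ∃ Q : Set (κ → ℝ), IsBody Q ∧ slack Q = slack K ∧ ratio Q = ratio K := by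
  let L := LinearEquiv.funCongrLeft ℝ ℝ e.symm
  have h0 : (0 : κ → ℝ) ∈ (fun x => 0 + L x) '' K := ⟨0, hK.zero_mem, by simp⟩
  have hint := exists_scale_integral L 0 e K hK.compact.measurableSet
  have hdet : ((LinearEquiv.funCongrLeft ℝ ℝ e).toLinearMap).comp L.toLinearMap =
      LinearMap.id := by
    ext x i; simp [L, LinearEquiv.funCongrLeft_apply]
  rw [hdet, LinearMap.det_id, abs_one] at hint
  have hQ := hK.affine_image L 0 h0
  have hr := ratio_affine_image hK L 0 h0
  set Q := (fun x => 0 + L x) '' K with hQdef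
  clear_value Q
  refine ⟨Q, hQ, ?_, hr⟩
  have hL : ∀ x i, L x i = x (e.symm i) := fun x i => rfl
  have hvol : volume.real Q = volume.real K := by
    have := hint (fun _ => 1)
    rw [setIntegral_const, setIntegral_const, smul_eq_mul, smul_eq_mul, mul_one, mul_one,
      one_mul] at this
    exact this
  have hcard : Fintype.card κ = Fintype.card ι := (Fintype.card_congr e).symm
  have hm : coneMean Q = coneMean K ∘ e.symm := by
    ext i; simp [coneMean, bodyCentroid, hvol, hint, hL, hcard]
  have hc : coneCov Q = (coneCov K).submatrix e.symm e.symm := by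
    ext i j
    rw [submatrix_apply, coneCov_eq_raw hQ.compact hQ.volume_pos,
      coneCov_eq_raw hK.compact hK.volume_pos, hvol, hint, hm]
    simp [hL, hcard]
  rw [slack, slack, hc, hm, inv_submatrix_equiv, submatrix_mulVec_equiv, hcard,
    comp_equiv_dotProduct_comp_equiv]
  simp [Function.comp_assoc]

lemma exists_power (hK : IsBody K) (k : ℕ) :
    ∃ (α : Type) (_ : Fintype α) (_ : DecidableEq α) (Q : Set (α → ℝ)),
      IsBody Q ∧ slack Q = 1 ∧ Fintype.card α = (k + 1) * (Fintype.card ι + 1) ∧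
        ratio Q = ratio K ^ (k + 1) := by
  classical
  obtain ⟨P, hP, sP, rP⟩ := exists_pyramid hK
  obtain ⟨e⟩ : Nonempty (ι ⊕ Fin 1 ≃ Fin (Fintype.card ι + 1)) :=
    ⟨Fintype.equivFinOfCardEq (by simp)⟩
  obtain ⟨R, hR, sR, rR⟩ := exists_reindex hP e
  rw [sP] at sR
  rw [rP] at rR
  induction k with
  | zero =>
    exact ⟨Fin (Fintype.card ι + 1), inferInstance, inferInstance, R, hR, sR, by simp,
      by rw [pow_one, rR]⟩
  | succ k ih =>
    obtain ⟨α, i₁, i₂, Q, hQ, sQ, cQ, rQ⟩ := ih
    refine ⟨α ⊕ Fin (Fintype.card ι + 1), inferInstance, inferInstance, freeSum Q R, hQ.free_sum hR, ?_, ?_, ?_⟩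
    · rw [slack_freeSum hQ hR (slack_eq hQ).1 (slack_eq hR).1, sQ, sR]; norm_num
    · rw [Fintype.card_sum, cQ, Fintype.card_fin]; ring
    · rw [ratio_freeSum hQ hR (slack_eq hQ).1 (slack_eq hR).1 (by rw [sQ]; norm_num)
        (by rw [sR]; norm_num), sQ, sR, rQ, rR, pow_succ (ratio K) (k + 1)]
      norm_num

end Vale.Agent.P254
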